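import Mathlib

/-! Unit fraction bookkeeping for P012. -/

namespace Vale.Agent.P012

/-- `r` is a sum of at most `k` unit fractions, repetitions allowed. -/
def UF (k : ℕ) (r : ℚ) : Prop :=
  ∃ s : Multiset ℕ, s.card ≤ k ∧ (∀ n ∈ s, 0 < n) ∧ (s.map (fun n : ℕ => (1 : ℚ) / n)).sum = r

/-- `T` is a sum of at most `k` divisors of `D`. -/
def SumDiv (D k T : ℕ) : Prop :=
  ∃ s : Multiset ℕ, s.card ≤ k ∧ (∀ n ∈ s, n ∣ D) ∧ s.sum = T

theorem UF.zero (k : ℕ) : UF k 0 := ⟨0, by simp, by simp, by simp⟩

theorem UF.mono {k k' : ℕ} {r : ℚ} (h : UF k r) (hk : k ≤ k') : UF k' r := by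
  obtain ⟨s, h1, h2, h3⟩ := h
  exact ⟨s, h1.trans hk, h2, h3⟩

theorem UF.add {k k' : ℕ} {r r' : ℚ} (h : UF k r) (h' : UF k' r') : UF (k + k') (r + r') := by
  obtain ⟨s, h1, h2, h3⟩ := h
  obtain ⟨s', h1', h2', h3'⟩ := h'
  refine ⟨s + s', by simp; omega, ?_, by simp only [Multiset.map_add, Multiset.sum_add, h3, h3']⟩
  intro n hn
  rcases Multiset.mem_add.1 hn with h | h
  · exact h2 n h
  · exact h2' n h

theorem UF.one {n : ℕ} (hn : 0 < n) : UF 1 ((1 : ℚ) / n) :=
  ⟨{n}, by simp, by simpa using hn, by simp⟩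

theorem SumDiv.zero (D k : ℕ) : SumDiv D k 0 := ⟨0, by simp, by simp, by simp⟩

theorem SumDiv.mono {D k k' T : ℕ} (h : SumDiv D k T) (hk : k ≤ k') : SumDiv D k' T := by
  obtain ⟨s, h1, h2, h3⟩ := h
  exact ⟨s, h1.trans hk, h2, h3⟩

theorem SumDiv.dvd {D D' k T : ℕ} (h : SumDiv D k T) (hD : D ∣ D') : SumDiv D' k T := by
  obtain ⟨s, h1, h2, h3⟩ := h
  exact ⟨s, h1, fun n hn => (h2 n hn).trans hD, h3⟩

theorem SumDiv.add {D k k' T T' : ℕ} (h : SumDiv D k T) (h' : SumDiv D k' T') :
    SumDiv D (k + k') (T + T') := by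
  obtain ⟨s, h1, h2, h3⟩ := h
  obtain ⟨s', h1', h2', h3'⟩ := h'
  refine ⟨s + s', by simp; omega, ?_, by simp only [Multiset.sum_add, h3, h3']⟩
  intro n hn
  rcases Multiset.mem_add.1 hn with h | h
  · exact h2 n h
  · exact h2' n h

theorem SumDiv.one {D n : ℕ} (hn : n ∣ D) : SumDiv D 1 n :=
  ⟨{n}, by simp, by simpa using hn, by simp⟩

theorem SumDiv.mul {D k T y E : ℕ} (h : SumDiv D k T) (hy : y ∣ E) :
    SumDiv (E * D) k (y * T) := by
  obtain ⟨s, h1, h2, h3⟩ := h
  refine ⟨s.map (fun n => y * n), by simpa using h1, ?_, ?_⟩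
  · intro n hn
    obtain ⟨m, hm, rfl⟩ := Multiset.mem_map.1 hn
    exact mul_dvd_mul hy (h2 m hm)
  · rw [Multiset.sum_map_mul_left]; simp [h3]

theorem SumDiv.uf {D k T : ℕ} (h : SumDiv D k T) (hD : 0 < D) {s : ℕ} (hs : 0 < s) :
    UF k ((T : ℚ) / (D * s)) := by
  obtain ⟨m, h1, h2, h3⟩ := h
  refine ⟨m.map (fun n => D / n * s), by simpa using h1, ?_, ?_⟩
  · intro n hn
    obtain ⟨e, he, rfl⟩ := Multiset.mem_map.1 hn
    have := h2 e he
    exact Nat.mul_pos (Nat.div_pos (Nat.le_of_dvd hD this) (Nat.pos_of_dvd_of_pos this hD)) hs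
  · rw [Multiset.map_map, ← h3]
    have : ∀ e ∈ m, ((fun n : ℕ => (1 : ℚ) / n) ∘ fun n => D / n * s) e
        = (e : ℚ) / (D * s) := by
      intro e he
      obtain ⟨c, hc⟩ := h2 e he
      have he0 : 0 < e := Nat.pos_of_dvd_of_pos (h2 e he) hD
      have hc0 : 0 < c := by
        rcases Nat.eq_zero_or_pos c with h | h
        · subst h; omega
        · exact h
      simp only [Function.comp]
      rw [hc, Nat.mul_div_cancel_left _ he0]
      have : (e : ℚ) ≠ 0 := by positivity
      have : (c : ℚ) ≠ 0 := by positivity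
      have : (s : ℚ) ≠ 0 := by positivity
      push_cast
      field_simp
    rw [Multiset.map_congr rfl this]
    simp only [div_eq_mul_inv]
    rw [Multiset.sum_map_mul_right]
    congr 1
    induction m using Multiset.induction_on with
    | empty => simp
    | cons a s ih => simp

/-- If `x` divides a positive sum of `k` divisors of `D` then `x / (D n)` is a sum of `k` unit
fractions. -/
theorem SumDiv.uf_of_dvd {D k T x n : ℕ} (h : SumDiv D k T) (hD : 0 < D) (hT : 0 < T)
    (hx : x ∣ T) (hn : 0 < n) : UF k ((x : ℚ) / (D * n)) := by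
  obtain ⟨c, rfl⟩ := hx
  have hc : 0 < c := Nat.pos_of_mul_pos_left hT
  have := h.uf hD (s := n * c) (Nat.mul_pos hn hc)
  convert this using 1
  have : (c : ℚ) ≠ 0 := by positivity
  have : (D : ℚ) ≠ 0 := by positivity
  have : (n : ℚ) ≠ 0 := by positivity
  push_cast
  field_simp

/-- Digits: every `z < B ^ j` is a sum of `j` divisors of `B ! * B ^ j`. -/
theorem sumDiv_digits (B : ℕ) (j : ℕ) : ∀ z < B ^ j, SumDiv (B.factorial * B ^ j) j z := by
  induction j with
  | zero => intro z hz; have : z = 0 := by simpa using hz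
            subst this; exact SumDiv.zero _ _
  | succ j ih =>
    intro z hz
    have hB : 0 < B := by
      rcases Nat.eq_zero_or_pos B with h | h
      · subst h; simp at hz
      · exact h
    have h1 : z / B < B ^ j := by
      rw [Nat.div_lt_iff_lt_mul hB]; simpa [pow_succ] using hz
    have h2 := (ih _ h1).mul (dvd_refl B)
    have h3 : SumDiv (B.factorial * B ^ (j + 1)) 1 (z % B) := by
      rcases Nat.eq_zero_or_pos (z % B) with h | h
      · rw [h]; exact SumDiv.zero _ _
      · exact SumDiv.one (Dvd.dvd.mul_right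
          (Nat.dvd_factorial h (Nat.mod_lt z hB).le) _)
    have h4 : SumDiv (B.factorial * B ^ (j + 1)) j (B * (z / B)) := by
      convert h2 using 1; ring
    have := h4.add h3
    rwa [Nat.div_add_mod] at this

theorem sum_inv_nonneg (s : Multiset ℕ) : 0 ≤ (s.map (fun n : ℕ => (1 : ℚ) / n)).sum := by
  apply Multiset.sum_nonneg
  intro x hx
  obtain ⟨n, _, rfl⟩ := Multiset.mem_map.1 hx
  positivity

/-- Crude bound on the denominators of a `k`-term representation of `a / b`. -/
theorem denom_bound (k : ℕ) : ∀ (s : Multiset ℕ) (a b : ℕ), s.card ≤ k → (∀ n ∈ s, 0 < n) →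
    0 < b → (s.map (fun n : ℕ => (1 : ℚ) / n)).sum = (a : ℚ) / b →
    ∀ n ∈ s, n ≤ (k * b) ^ (2 ^ k) := by
  induction k with
  | zero =>
    intro s a b h1 _ _ _ n hn
    have : s = 0 := by simpa using h1
    subst this; simp at hn
  | succ k ih =>
    intro s a b h1 h2 hb h3 n hn
    have hne : s.toFinset.Nonempty := ⟨n, by simpa using hn⟩
    obtain ⟨m, hm, hmin⟩ := Finset.exists_min_image s.toFinset id hne
    have hm' : m ∈ s := by simpa using hm
    have hm0 : 0 < m := h2 m hm'
    have hmq : (0 : ℚ) < m := by exact_mod_cast hm0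
    have hbq : (0 : ℚ) < b := by exact_mod_cast hb
    obtain ⟨s', rfl⟩ := Multiset.exists_cons_of_mem hm'
    have hs' := sum_inv_nonneg s'
    rw [Multiset.map_cons, Multiset.sum_cons] at h3
    have hle : (1 : ℚ) / m ≤ a / b := by linarith
    have ha : 0 < a := by
      rcases Nat.eq_zero_or_pos a with h | h
      · subst h
        have : (0 : ℚ) < 1 / m := by positivity
        simp at hle; linarith
      · exact h
    -- the minimum is at most `(k+1) b`
    have hsum : (s'.map (fun n : ℕ => (1 : ℚ) / n)).sum ≤ k * (1 / m) := by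
      have := Multiset.sum_le_card_nsmul (s'.map (fun n : ℕ => (1 : ℚ) / n)) (1 / m) (by
        intro x hx
        obtain ⟨e, he, rfl⟩ := Multiset.mem_map.1 hx
        have h4 : m ≤ e := hmin e (by simp [he])
        exact one_div_le_one_div_of_le hmq (by exact_mod_cast h4))
      rw [Multiset.card_map, nsmul_eq_mul] at this
      refine this.trans (mul_le_mul_of_nonneg_right ?_ (by positivity))
      have : s'.card ≤ k := by simpa using h1
      exact_mod_cast this
    have hmb : m ≤ (k + 1) * b := by
      have h5 : (1 : ℚ) / b ≤ a / b := by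
        apply div_le_div_of_nonneg_right _ hbq.le; exact_mod_cast ha
      have h6 : (1 : ℚ) / b ≤ (k + 1) / m := by
        have : ((k : ℚ) + 1) / m = 1 / m + k * (1 / m) := by ring
        linarith
      rw [div_le_div_iff₀ hbq hmq] at h6
      have : (m : ℚ) ≤ (k + 1) * b := by linarith
      exact_mod_cast this
    have hkb : 1 ≤ (k + 1) * b := Nat.mul_pos (Nat.succ_pos k) hb
    rcases Multiset.mem_cons.1 hn with h | h
    · subst h
      exact hmb.trans (Nat.le_self_pow (by positivity) _)
    · have hbm : b ≤ a * m := by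
        rw [div_le_div_iff₀ hmq hbq] at hle
        have : (b : ℚ) ≤ a * m := by linarith
        exact_mod_cast this
      have := ih s' (a * m - b) (b * m) (by simpa using h1)
        (fun e he => h2 e (Multiset.mem_cons_of_mem he)) (Nat.mul_pos hb hm0) (by
          rw [Nat.cast_sub hbm]; push_cast
          have : (s'.map (fun n : ℕ => (1 : ℚ) / n)).sum = a / b - 1 / m := by linarith
          rw [this]; field_simp) n h
      refine this.trans ?_
      rw [pow_succ 2 k, mul_comm (2 ^ k) 2, pow_mul]
      apply Nat.pow_le_pow_left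
      calc k * (b * m) ≤ (k + 1) * (b * ((k + 1) * b)) := by gcongr; omega
        _ = ((k + 1) * b) ^ 2 := by ring

/-- Repetitions can be removed. -/
theorem UF.distinct {k : ℕ} : ∀ {a b : ℕ}, 0 < b → a < b → UF k ((a : ℚ) / b) →
    ∃ S : Finset ℕ, S.card ≤ k ∧ (∀ n ∈ S, 2 ≤ n) ∧ ∑ n ∈ S, (1 : ℚ) / n = a / b := by
  intro a b hb hab
  have hlt : (a : ℚ) / b < 1 := by
    rw [div_lt_one (by exact_mod_cast hb)]; exact_mod_cast hab
  induction k with
  | zero =>
    rintro ⟨s, h1, -, h3⟩
    have : s = 0 := by simpa using h1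
    subst this
    exact ⟨∅, by simp, by simp, by simpa using h3⟩
  | succ k ih =>
    set C := (k + 1) * ((k + 1) * b) ^ (2 ^ (k + 1)) with hC
    suffices H : ∀ (m : ℕ) (s : Multiset ℕ), s.card ≤ k + 1 → (∀ n ∈ s, 0 < n) →
        (s.map (fun n : ℕ => (1 : ℚ) / n)).sum = (a : ℚ) / b → C ≤ s.sum + m →
        ∃ S : Finset ℕ, S.card ≤ k + 1 ∧ (∀ n ∈ S, 2 ≤ n) ∧ ∑ n ∈ S, (1 : ℚ) / n = a / b by
      rintro ⟨s, h1, h2, h3⟩
      exact H C s h1 h2 h3 (by omega)
    intro m
    induction m using Nat.strong_induction_on with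
    | _ m ihm =>
      intro s h1 h2 h3 h4
      have h2' : ∀ n ∈ s, 2 ≤ n := by
        intro n hn
        by_contra hc
        have hn1 : n = 1 := by have := h2 n hn; omega
        subst hn1
        obtain ⟨s', rfl⟩ := Multiset.exists_cons_of_mem hn
        have := sum_inv_nonneg s'
        rw [Multiset.map_cons, Multiset.sum_cons] at h3
        simp at h3 this
        linarith
      by_cases hnd : s.Nodup
      · refine ⟨⟨s, hnd⟩, h1, h2', ?_⟩
        exact h3
      · rw [Multiset.nodup_iff_ne_cons_cons] at hnd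
        push Not at hnd
        obtain ⟨n, s', rfl⟩ := hnd
        have hn2 : 2 ≤ n := h2' n (by simp)
        have hs' : ∀ e ∈ s', 0 < e := fun e he => h2 e (by simp [he])
        simp only [Multiset.map_cons, Multiset.sum_cons, Multiset.card_cons] at h1 h3 h4
        rcases Nat.even_or_odd' n with ⟨c, hc | hc⟩
        · have hc0 : 0 < c := by omega
          have : UF k ((a : ℚ) / b) := by
            refine ⟨c ::ₘ s', by simp; omega, ?_, ?_⟩
            · intro e he
              rcases Multiset.mem_cons.1 he with h | h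
              · omega
              · exact hs' e h
            · rw [Multiset.map_cons, Multiset.sum_cons, ← h3, hc]
              have : (c : ℚ) ≠ 0 := by positivity
              push_cast; field_simp; ring
          obtain ⟨S, hS1, hS2⟩ := ih this
          exact ⟨S, by omega, hS2⟩
        · have hc0 : 0 < c := by omega
          have hpos : ∀ e ∈ (c + 1) ::ₘ (n * (c + 1)) ::ₘ s', 0 < e := by
            intro e he
            simp only [Multiset.mem_cons] at he
            rcases he with h | h | h
            · omega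
            · rw [h]; positivity
            · exact hs' e h
          have hcard : ((c + 1) ::ₘ (n * (c + 1)) ::ₘ s').card ≤ k + 1 := by simp; omega
          have hsum : (((c + 1) ::ₘ (n * (c + 1)) ::ₘ s').map
              (fun n : ℕ => (1 : ℚ) / n)).sum = (a : ℚ) / b := by
            simp only [Multiset.map_cons, Multiset.sum_cons]
            rw [← h3, hc]
            have : (c : ℚ) + 1 ≠ 0 := by positivity
            have : 2 * (c : ℚ) + 1 ≠ 0 := by positivity
            push_cast; field_simp; ring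
          have hb1 := denom_bound (k + 1) _ a b hcard hpos hb hsum
          have hb2 : ((c + 1) ::ₘ (n * (c + 1)) ::ₘ s').sum ≤ C := by
            have := Multiset.sum_le_card_nsmul _ _ hb1
            rw [smul_eq_mul] at this
            exact this.trans (Nat.mul_le_mul_right _ hcard)
          simp only [Multiset.sum_cons] at hb2
          have hinc : n + n + 1 ≤ (c + 1) + n * (c + 1) := by subst hc; nlinarith
          have hm : 0 < m := by omega
          refine ihm (m - 1) (by omega) _ hcard hpos hsum ?_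
          simp only [Multiset.sum_cons]
          omega

end Vale.Agent.P012
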