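import Vale.Agent.P012.Basic

/-! Products of primes chosen from blocks. -/

namespace Vale.Agent.P012

open Finset

theorem prime_prod_eq {κ : Type*} (I : Finset κ) (f g : κ → ℕ) (hf : ∀ i, (f i).Prime)
    (hg : ∀ i, (g i).Prime) (h : ∏ i ∈ I, f i = ∏ i ∈ I, g i) :
    ∀ i ∈ I, ∃ i' ∈ I, f i = g i' := by
  intro i hi
  have h1 : f i ∣ ∏ i ∈ I, g i := h ▸ dvd_prod_of_mem f hi
  obtain ⟨i', hi', h2⟩ := (Prime.dvd_finsetProd_iff (hf i).prime g).1 h1
  exact ⟨i', hi', (Nat.prime_dvd_prime_iff_eq (hf i) (hg i')).1 h2⟩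

theorem close_count {J β p0 j0 y : ℕ} (τ : (Fin J × Fin β) × Fin p0 → ℕ)
    (hinj : Function.Injective τ) (hp : ∀ i, (τ i).Prime) (hy : ∀ i, y ≤ τ i) (hy0 : 0 < y)
    (σ σ' : Fin J → Fin β) (hσ : σ ≠ σ') :
    (univ.filter (fun ω : Fin J × Fin β → Fin p0 =>
      ∏ i, τ ((i, σ i), ω (i, σ i)) < ∏ i, τ ((i, σ' i), ω (i, σ' i)) + y ^ (J - j0) ∧
      ∏ i, τ ((i, σ' i), ω (i, σ' i)) < ∏ i, τ ((i, σ i), ω (i, σ i)) + y ^ (J - j0))).card
      * p0 ^ j0 ≤ 2 * Fintype.card (Fin J × Fin β → Fin p0) := by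
  classical
  set bad := univ.filter (fun ω : Fin J × Fin β → Fin p0 =>
      ∏ i, τ ((i, σ i), ω (i, σ i)) < ∏ i, τ ((i, σ' i), ω (i, σ' i)) + y ^ (J - j0) ∧
      ∏ i, τ ((i, σ' i), ω (i, σ' i)) < ∏ i, τ ((i, σ i), ω (i, σ i)) + y ^ (J - j0)) with hbad
  set I := univ.filter (fun i => σ i ≠ σ' i) with hI
  have hlow : ∀ (ω : Fin J × Fin β → Fin p0) (K : Finset (Fin J)), K.card ≤ j0 →
      y ^ (J - j0) ≤ ∏ i ∈ Kᶜ, τ ((i, σ i), ω (i, σ i)) := by
    intro ω K hK
    calc y ^ (J - j0) ≤ y ^ (Kᶜ).card := by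
          apply Nat.pow_le_pow_right hy0
          rw [card_compl, Fintype.card_fin]; omega
      _ ≤ _ := pow_card_le_prod _ _ _ fun i _ => hy _
  by_cases hw : I.card ≤ j0
  · have : bad = ∅ := by
      rw [hbad, filter_eq_empty_iff]
      rintro ω - ⟨h1, h2⟩
      have e1 := prod_mul_prod_compl I (fun i => τ ((i, σ i), ω (i, σ i)))
      have e2 := prod_mul_prod_compl I (fun i => τ ((i, σ' i), ω (i, σ' i)))
      have e3 : ∏ i ∈ Iᶜ, τ ((i, σ' i), ω (i, σ' i)) = ∏ i ∈ Iᶜ, τ ((i, σ i), ω (i, σ i)) := by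
        refine prod_congr rfl fun i hi => ?_
        have : σ i = σ' i := by simpa [hI] using hi
        rw [this]
      have e4 := hlow ω I hw
      rw [e3] at e2
      have e5 : ∏ i ∈ I, τ ((i, σ i), ω (i, σ i)) ≠ ∏ i ∈ I, τ ((i, σ' i), ω (i, σ' i)) := by
        intro he
        obtain ⟨i, hi⟩ : ∃ i, σ i ≠ σ' i := Function.ne_iff.1 hσ
        obtain ⟨i', -, h3⟩ := prime_prod_eq I _ _ (fun _ => hp _) (fun _ => hp _) he i
          (by simpa [hI] using hi)
        have h4 := hinj h3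
        simp only [Prod.mk.injEq] at h4
        obtain ⟨⟨h5, h6⟩, -⟩ := h4
        subst h5
        exact hi h6
      rw [← e1, ← e2] at h1 h2
      set r := ∏ i ∈ Iᶜ, τ ((i, σ i), ω (i, σ i))
      set u := ∏ i ∈ I, τ ((i, σ i), ω (i, σ i))
      set u' := ∏ i ∈ I, τ ((i, σ' i), ω (i, σ' i))
      rcases lt_or_gt_of_ne e5 with h | h
      · have : (u + 1) * r ≤ u' * r := Nat.mul_le_mul_right _ h
        nlinarith
      · have : (u' + 1) * r ≤ u * r := Nat.mul_le_mul_right _ h
        nlinarith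
    rw [this]; simp
  · obtain ⟨K, hKI, hK⟩ := exists_subset_card_eq (s := I) (n := j0) (by omega)
    let ow : (Fin J × Fin β → Fin p0) → (K → Fin p0) → (Fin J × Fin β → Fin p0) :=
      fun ω η p => if h : p.1 ∈ K ∧ p.2 = σ p.1 then η ⟨p.1, h.1⟩ else ω p
    let bit : (Fin J × Fin β → Fin p0) → Bool := fun ω =>
      decide (∏ i ∈ K, τ ((i, σ i), ω (i, σ i)) =
        (∏ i, τ ((i, σ' i), ω (i, σ' i))) / ∏ i ∈ Kᶜ, τ ((i, σ i), ω (i, σ i)))
    have h1 : (bad ×ˢ (univ : Finset (K → Fin p0))).card ≤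
        (univ : Finset (Bool × (Fin J × Fin β → Fin p0))).card := by
      apply card_le_card_of_injOn (fun p => (bit p.1, ow p.1 p.2)) (fun _ _ => mem_univ _)
      rintro ⟨ω, η⟩ h1 ⟨ω', η'⟩ h2 he
      simp only [Prod.mk.injEq] at he
      obtain ⟨hb, ho⟩ := he
      have hω : ω ∈ bad := (mem_product.1 h1).1
      have hω' : ω' ∈ bad := (mem_product.1 h2).1
      have hout : ∀ p : Fin J × Fin β, ¬ (p.1 ∈ K ∧ p.2 = σ p.1) → ω p = ω' p := by
        intro p hp'
        have := congrFun ho p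
        simpa only [ow, dif_neg hp'] using this
      have hη : η = η' := by
        funext i
        have := congrFun ho (i.1, σ i.1)
        simpa [ow] using this
      have e1 : ∏ i, τ ((i, σ' i), ω (i, σ' i)) = ∏ i, τ ((i, σ' i), ω' (i, σ' i)) := by
        refine prod_congr rfl fun i _ => ?_
        rw [hout]
        rintro ⟨h3, h4⟩
        have := hKI h3
        simp only [hI, mem_filter, mem_univ, true_and] at this
        exact this h4.symm
      have e2 : ∏ i ∈ Kᶜ, τ ((i, σ i), ω (i, σ i)) = ∏ i ∈ Kᶜ, τ ((i, σ i), ω' (i, σ i)) := by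
        refine prod_congr rfl fun i hi => ?_
        rw [hout]
        rintro ⟨h3, -⟩
        exact (mem_compl.1 hi) h3
      have e3 := prod_mul_prod_compl K (fun i => τ ((i, σ i), ω (i, σ i)))
      have e4 := prod_mul_prod_compl K (fun i => τ ((i, σ i), ω' (i, σ i)))
      have e5 := hlow ω K hK.le
      simp only [hbad, mem_filter, mem_univ, true_and] at hω hω'
      simp only [bit] at hb
      rw [← e1, ← e2] at hb
      rw [← e2] at e4
      rw [← e1, ← e4] at hω'
      rw [← e3] at hω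
      have hu : ∏ i ∈ K, τ ((i, σ i), ω (i, σ i)) = ∏ i ∈ K, τ ((i, σ i), ω' (i, σ i)) := by
        set r := ∏ i ∈ Kᶜ, τ ((i, σ i), ω (i, σ i))
        set u := ∏ i ∈ K, τ ((i, σ i), ω (i, σ i))
        set u' := ∏ i ∈ K, τ ((i, σ i), ω' (i, σ i))
        set d := ∏ i, τ ((i, σ' i), ω (i, σ' i))
        have hr : 0 < r := lt_of_lt_of_le (by positivity) e5
        have key : ∀ w : ℕ, w * r < d + y ^ (J - j0) → d < w * r + y ^ (J - j0) →
            w = d / r ∨ w = d / r + 1 := by
          intro w a1 a2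
          have b1 : d / r < w + 1 := by
            rw [Nat.div_lt_iff_lt_mul hr]; nlinarith
          have b2 : w < d / r + 2 := by
            by_contra hc
            have c1 : (d / r + 2) * r ≤ w * r := Nat.mul_le_mul_right _ (by omega)
            have c2 := Nat.div_add_mod d r
            have c3 := Nat.mod_lt d hr
            nlinarith
          omega
        have k1 := key u hω.1 hω.2
        have k2 := key u' hω'.1 hω'.2
        have k3 : u = d / r ↔ u' = d / r := by simpa using hb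
        omega
      have hωω : ω = ω' := by
        funext p
        by_cases hp' : p.1 ∈ K ∧ p.2 = σ p.1
        · obtain ⟨i, c⟩ := p
          simp only at hp'
          obtain ⟨h3, rfl⟩ := hp'
          obtain ⟨i', -, h4⟩ := prime_prod_eq K _ _ (fun _ => hp _) (fun _ => hp _) hu i h3
          have h5 := hinj h4
          simp only [Prod.mk.injEq] at h5
          obtain ⟨⟨h6, -⟩, h7⟩ := h5
          subst h6
          exact h7
        · exact hout p hp'
      rw [hωω, hη]
    rw [card_product, card_univ, card_univ, Fintype.card_prod, Fintype.card_bool,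
      Fintype.card_fun, Fintype.card_coe, Fintype.card_fin, hK] at h1
    exact h1

theorem exists_separated {J β p0 j0 y : ℕ} (τ : (Fin J × Fin β) × Fin p0 → ℕ)
    (hinj : Function.Injective τ) (hp : ∀ i, (τ i).Prime) (hy : ∀ i, y ≤ τ i) (hy0 : 0 < y)
    (hp0 : 0 < p0) (h : 4 * β ^ J ≤ p0 ^ j0) :
    ∃ ω : Fin J × Fin β → Fin p0, ∃ A : Finset ℕ, β ^ J ≤ 2 * A.card ∧
      (∀ d ∈ A, ∃ σ : Fin J → Fin β, d = ∏ i, τ ((i, σ i), ω (i, σ i))) ∧
      ∀ d ∈ A, ∀ d' ∈ A, d < d' → d + y ^ (J - j0) ≤ d' := by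
  classical
  let D : (Fin J × Fin β → Fin p0) → (Fin J → Fin β) → ℕ :=
    fun ω σ => ∏ i, τ ((i, σ i), ω (i, σ i))
  let cl : (Fin J × Fin β → Fin p0) → (Fin J → Fin β) × (Fin J → Fin β) → Prop :=
    fun ω p => p.1 ≠ p.2 ∧ D ω p.1 < D ω p.2 + y ^ (J - j0) ∧ D ω p.2 < D ω p.1 + y ^ (J - j0)
  have hne : (univ : Finset (Fin J × Fin β → Fin p0)).Nonempty :=
    ⟨fun _ => ⟨0, hp0⟩, mem_univ _⟩
  have h1 : ∑ ω : Fin J × Fin β → Fin p0, (univ.filter (cl ω)).card * p0 ^ j0 ≤
      ∑ ω : Fin J × Fin β → Fin p0, 2 * (β ^ J * β ^ J) := by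
    rw [← sum_mul]
    simp only [card_filter]
    rw [sum_comm, sum_mul]
    calc ∑ p : (Fin J → Fin β) × (Fin J → Fin β),
          (∑ ω : Fin J × Fin β → Fin p0, if cl ω p then 1 else 0) * p0 ^ j0
        ≤ ∑ p : (Fin J → Fin β) × (Fin J → Fin β),
          2 * Fintype.card (Fin J × Fin β → Fin p0) := by
          apply sum_le_sum
          rintro ⟨σ, σ'⟩ -
          rw [← card_filter]
          by_cases hσ : σ = σ'
          · have : univ.filter (fun ω => cl ω (σ, σ')) = ∅ := by
              rw [filter_eq_empty_iff]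
              rintro ω - ⟨h1, -⟩
              exact h1 hσ
            rw [this]; simp
          · refine le_trans ?_ (close_count (j0 := j0) τ hinj hp hy hy0 σ σ' hσ)
            apply Nat.mul_le_mul_right
            apply card_le_card
            intro ω hω
            simp only [mem_filter, mem_univ, true_and] at hω ⊢
            exact hω.2
      _ = _ := by
          simp only [sum_const, card_univ, Fintype.card_prod, Fintype.card_fun, Fintype.card_fin,
            smul_eq_mul]
          ring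
  obtain ⟨ω, -, hω⟩ := exists_le_of_sum_le hne h1
  have h2 : 2 * (univ.filter (cl ω)).card ≤ β ^ J := by
    rcases Nat.eq_zero_or_pos (β ^ J) with h0 | h0
    · have : (univ.filter (cl ω)).card ≤ β ^ J * β ^ J := by
        refine (card_filter_le _ _).trans ?_
        simp
      rw [h0] at this ⊢; omega
    · have : (univ.filter (cl ω)).card * (4 * β ^ J) ≤ 2 * (β ^ J * β ^ J) :=
        (Nat.mul_le_mul_left _ h).trans hω
      apply Nat.le_of_mul_le_mul_right _ (show 0 < 2 * β ^ J by omega)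
      nlinarith
  set good := univ.filter (fun σ : Fin J → Fin β => ∀ σ', ¬ cl ω (σ, σ')) with hgood
  have h3 : β ^ J ≤ good.card + (univ.filter (cl ω)).card := by
    have h4 : (univ : Finset (Fin J → Fin β)) ⊆ good ∪ (univ.filter (cl ω)).image Prod.fst := by
      intro σ _
      by_cases hg : σ ∈ good
      · exact mem_union_left _ hg
      · apply mem_union_right
        simp only [hgood, mem_filter, mem_univ, true_and, not_forall, not_not] at hg
        obtain ⟨σ', h5⟩ := hg
        exact mem_image.2 ⟨(σ, σ'), by simpa using h5, rfl⟩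
    have h5 := (card_le_card h4).trans (card_union_le _ _)
    have h6 := card_image_le (s := univ.filter (cl ω)) (f := Prod.fst)
    simp only [card_univ, Fintype.card_fun, Fintype.card_fin] at h5
    omega
  have hsep : 0 < y ^ (J - j0) := by positivity
  have hinjD : Set.InjOn (D ω) good := by
    intro σ hσ σ' _ he
    by_contra hne'
    have := (mem_filter.1 hσ).2 σ'
    exact this ⟨hne', by simp only; omega, by simp only; omega⟩
  refine ⟨ω, good.image (D ω), ?_, ?_, ?_⟩
  · rw [card_image_of_injOn hinjD]; omega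
  · intro d hd
    obtain ⟨σ, -, rfl⟩ := mem_image.1 hd
    exact ⟨σ, rfl⟩
  · intro d hd d' hd' hlt
    obtain ⟨σ, hσ, rfl⟩ := mem_image.1 hd
    obtain ⟨σ', -, rfl⟩ := mem_image.1 hd'
    by_contra hc
    have := (mem_filter.1 hσ).2 σ'
    refine this ⟨?_, by simp only; omega, by simp only; omega⟩
    rintro (h : σ = σ')
    subst h
    omega

/-- Scale separated sums are distinct. -/
theorem exists_sumset (A : Finset ℕ) {E L U sep ρ κ : ℕ} (g : ℕ → ℕ) (k : ℕ)
    (hA : ∀ d ∈ A, d ∣ L ∧ 1 ≤ d ∧ d ≤ U) (hsep : ∀ d ∈ A, ∀ d' ∈ A, d < d' → d + sep ≤ d')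
    (hρ : 2 ≤ ρ) (hκ : 2 * κ * U < ρ * sep)
    (hg : ∀ i < k, g i ∣ E ∧ g i ≤ ρ ^ i ∧ ρ ^ i ≤ g i * κ) :
    ∃ X : Finset ℕ, X.card = A.card ^ k ∧
      ∀ e ∈ X, SumDiv (E * L) k e ∧ k ≤ e ∧ e * ρ ≤ 2 * U * ρ ^ k := by
  induction k with
  | zero => exact ⟨{0}, by simp, by simpa using SumDiv.zero _ _⟩
  | succ k ih =>
    obtain ⟨X, hX1, hX2⟩ := ih (fun i hi => hg i (by omega))
    obtain ⟨g1, g2, g3⟩ := hg k (by omega)
    have hρk : 0 < ρ ^ k := by positivity
    have hg0 : 0 < g k := by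
      rcases Nat.eq_zero_or_pos (g k) with h | h
      · rw [h] at g3; omega
      · exact h
    have hsmall : ∀ e ∈ X, e < g k * sep := by
      intro e he
      have h1 := (hX2 e he).2.2
      apply Nat.lt_of_mul_lt_mul_right (a := ρ)
      calc e * ρ ≤ 2 * U * (g k * κ) := h1.trans (Nat.mul_le_mul_left _ g3)
        _ = g k * (2 * κ * U) := by ring
        _ < g k * (ρ * sep) := Nat.mul_lt_mul_of_pos_left hκ hg0
        _ = g k * sep * ρ := by ring
    refine ⟨image₂ (fun e d => e + g k * d) X A, ?_, ?_⟩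
    · rw [card_image₂_iff.2, hX1, pow_succ]
      rintro ⟨e, d⟩ h1 ⟨e', d'⟩ h2 he
      simp only [Set.mem_prod, mem_coe] at h1 h2 he
      have hd : d = d' := by
        by_contra hne
        rcases lt_or_gt_of_ne hne with h | h
        · have a1 := Nat.mul_le_mul_left (g k) (hsep d h1.2 d' h2.2 h)
          have a2 := hsmall e h1.1
          rw [mul_add] at a1
          omega
        · have a1 := Nat.mul_le_mul_left (g k) (hsep d' h2.2 d h1.2 h)
          have a2 := hsmall e' h2.1
          rw [mul_add] at a1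
          omega
      subst hd
      have : e = e' := by omega
      rw [this]
    · intro e he
      obtain ⟨e', he', d, hd, rfl⟩ := mem_image₂.1 he
      obtain ⟨a1, a2, a3⟩ := hX2 e' he'
      obtain ⟨b1, b2, b3⟩ := hA d hd
      refine ⟨a1.add (SumDiv.one (mul_dvd_mul g1 b1)), ?_, ?_⟩
      · have : 0 < g k * d := Nat.mul_pos hg0 b2
        omega
      · have c1 : g k * d ≤ ρ ^ k * U := Nat.mul_le_mul g2 b3
        have c2 : 2 * U * ρ ^ k ≤ ρ * U * ρ ^ k := by gcongr
        calc (e' + g k * d) * ρ = e' * ρ + g k * d * ρ := by ring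
          _ ≤ ρ * U * ρ ^ k + ρ ^ k * U * ρ := Nat.add_le_add (a3.trans c2) (by gcongr)
          _ = _ := by ring

end Vale.Agent.P012
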