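import Vale.Agent.P012.Fourier

/-! The final Fourier count modulo a good modulus. -/

namespace Vale.Agent.P012

open Finset

theorem le_of_sq_le_sq_of_nonneg {a b : ℝ} (hb : 0 ≤ b) (h : a ^ 2 ≤ b ^ 2) : a ≤ b :=
  (abs_le_of_sq_le_sq' h hb).2

theorem sum_dilate_le (X Y : Finset ℕ) {x h V₀ : ℕ} (hx : 0 < x) (hY : Y ⊆ range V₀)
    (hv : V₀ ≤ x / Nat.gcd h x) :
    ∑ y ∈ Y, ‖SS X (y * ((h : ℚ) / x))‖ ^ 2 ≤ ∑ h' ∈ range x, ‖SS X ((h' : ℚ) / x)‖ ^ 2 := by
  have hinj : Set.InjOn (fun y : ℕ => (h * y) % x) Y := by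
    intro y hy y' hy' he
    have h1 : h * y ≡ h * y' [MOD x] := he
    have h2 := Nat.ModEq.cancel_left_div_gcd hx h1
    rw [Nat.gcd_comm] at h2
    have a1 := mem_range.1 (hY hy)
    have a2 := mem_range.1 (hY hy')
    exact Nat.ModEq.eq_of_lt_of_lt h2 (by omega) (by omega)
  have h1 := sum_image (f := fun h' : ℕ => ‖SS X ((h' : ℚ) / x)‖ ^ 2) hinj
  have h2 : ∀ y ∈ Y, ‖SS X (y * ((h : ℚ) / x))‖ ^ 2 = ‖SS X ((((h * y) % x : ℕ) : ℚ) / x)‖ ^ 2 := by
    intro y _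
    rw [← SS_add_int X ((((h * y) % x : ℕ) : ℚ) / x) ((h * y / x : ℕ) : ℤ)]
    congr 3
    have h3 := Nat.div_add_mod (h * y) x
    have h4 : ((h * y : ℕ) : ℚ) = x * ((h * y / x : ℕ) : ℚ) + ((h * y % x : ℕ) : ℚ) := by
      exact_mod_cast h3.symm
    have : (x : ℚ) ≠ 0 := by positivity
    rw [Int.cast_natCast]
    field_simp
    push_cast at h4
    linarith
  rw [sum_congr rfl h2, ← h1]
  apply sum_le_sum_of_subset_of_nonneg _ fun _ _ _ => by positivity
  intro r hr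
  obtain ⟨y, -, rfl⟩ := mem_image.1 hr
  exact mem_range.2 (Nat.mod_lt _ hx)

theorem exists_dvd_sum (X Y : Finset ℕ) {x V₀ Z : ℕ} {W : ℝ} (hx : 0 < x) (hW : 1 ≤ W)
    (hX : X.Nonempty) (hΦ : ∑ h ∈ range x, ‖SS X ((h : ℚ) / x)‖ ^ 2 ≤ W * (X.card : ℝ) ^ 2)
    (hY : Y ⊆ range V₀) (hYc : 4 * W ^ 3 ≤ Y.card) (hZ : 2 * W * V₀ ≤ Z) :
    ∃ r₁ ∈ X, ∃ r₂ ∈ X, ∃ r₃ ∈ X, ∃ y ∈ Y, ∃ z < Z, x ∣ r₁ + r₂ + y * r₃ + z := by
  by_contra hcon
  push Not at hcon
  set M : ℝ := (X.card : ℝ) with hM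
  have hM0 : 0 < M := by rw [hM]; exact_mod_cast hX.card_pos
  have hY0 : (0 : ℝ) < Y.card := lt_of_lt_of_le (by positivity) hYc
  have hV0 : (0 : ℝ) < V₀ := by
    have h1 : 0 < Y.card := by exact_mod_cast hY0
    have h2 := card_le_card hY
    rw [card_range] at h2
    exact_mod_cast h1.trans_le h2
  have hZ0 : (0 : ℝ) < Z := lt_of_lt_of_le (by positivity) hZ
  set G : ℕ → ℂ := fun h => SS X ((h : ℚ) / x) ^ 2 *
    ((∑ y ∈ Y, SS X (y * ((h : ℚ) / x))) * ∑ z ∈ range Z, ee (z * ((h : ℚ) / x))) with hG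
  have h1 : ∑ h ∈ range x, G h = 0 := by
    have e1 : ∀ h ∈ range x, G h = ∑ r₁ ∈ X, ∑ r₂ ∈ X, ∑ y ∈ Y, ∑ r₃ ∈ X, ∑ z ∈ range Z,
        ee (h * ((((r₁ + r₂ + y * r₃ + z : ℕ) : ℤ) : ℚ) / x)) := by
      intro h _
      simp only [hG, SS, sq]
      rw [sum_mul_sum, sum_mul]
      refine sum_congr rfl fun r₁ _ => ?_
      rw [sum_mul]
      refine sum_congr rfl fun r₂ _ => ?_
      rw [sum_mul, mul_sum]
      refine sum_congr rfl fun y _ => ?_
      rw [sum_mul, mul_sum]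
      refine sum_congr rfl fun r₃ _ => ?_
      rw [mul_sum, mul_sum]
      refine sum_congr rfl fun z _ => ?_
      rw [← ee_add, ← ee_add, ← ee_add]
      congr 1
      push_cast; ring
    rw [sum_congr rfl e1, sum_comm]
    refine sum_eq_zero fun r₁ h₁ => ?_
    rw [sum_comm]
    refine sum_eq_zero fun r₂ h₂ => ?_
    rw [sum_comm]
    refine sum_eq_zero fun y hy => ?_
    rw [sum_comm]
    refine sum_eq_zero fun r₃ h₃ => ?_
    rw [sum_comm]
    refine sum_eq_zero fun z hz => ?_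
    rw [orth hx, if_neg]
    rw [Int.natCast_dvd_natCast]
    exact hcon r₁ h₁ r₂ h₂ r₃ h₃ y hy z (mem_range.1 hz)
  have h2 : G 0 = ((M ^ 2 * ((Y.card * M) * Z) : ℝ) : ℂ) := by
    simp [hG, SS, ee_zero, hM]
  have h3 : ∀ h ∈ (range x).erase 0, ‖G h‖ ≤
      ‖SS X ((h : ℚ) / x)‖ ^ 2 * ((Y.card * M) * Z / (2 * W)) := by
    intro h hh
    have hh0 : h ≠ 0 := (mem_erase.1 hh).1
    have hhx : h < x := mem_range.1 (mem_erase.1 hh).2
    simp only [hG]
    rw [norm_mul, norm_pow, norm_mul]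
    gcongr
    by_cases hv : V₀ ≤ x / Nat.gcd h x
    · have a1 := (sum_dilate_le X Y hx hY hv).trans hΦ
      have a2 : ‖∑ y ∈ Y, SS X (y * ((h : ℚ) / x))‖ ≤ Y.card * M / (2 * W) := by
        refine (norm_sum_le _ _).trans ?_
        apply le_of_sq_le_sq_of_nonneg (by positivity)
        refine sq_sum_le_card_mul_sum_sq.trans ?_
        calc (Y.card : ℝ) * ∑ y ∈ Y, ‖SS X (y * ((h : ℚ) / x))‖ ^ 2
            ≤ Y.card * (W * M ^ 2) := by gcongr
          _ = Y.card * (4 * W ^ 3) * M ^ 2 / (2 * W) ^ 2 := by field_simp; ring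
          _ ≤ Y.card * Y.card * M ^ 2 / (2 * W) ^ 2 := by gcongr
          _ = _ := by ring
      have a3 : ‖∑ z ∈ range Z, ee (z * ((h : ℚ) / x))‖ ≤ Z := by
        refine (norm_sum_le _ _).trans ?_
        simp [ee_norm]
      calc _ ≤ (Y.card * M / (2 * W)) * Z := by gcongr
        _ = _ := by ring
    · push Not at hv
      have a2 : ‖∑ y ∈ Y, SS X (y * ((h : ℚ) / x))‖ ≤ Y.card * M := by
        refine (norm_sum_le _ _).trans ?_
        rw [← nsmul_eq_mul]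
        exact sum_le_card_nsmul _ _ _ fun y _ => SS_norm_le X _
      have hg0 : 0 < Nat.gcd h x := Nat.gcd_pos_of_pos_right _ hx
      have hxq : (0 : ℚ) < x := by exact_mod_cast hx
      have a3 := geom_bound (θ := (h : ℚ) / x) (v := x / Nat.gcd h x)
        (Nat.div_pos (Nat.gcd_le_right _ hx) hg0)
        ⟨(h / Nat.gcd h x : ℕ), by
          have h0' : ((Nat.gcd h x : ℕ) : ℚ) ≠ 0 := by positivity
          rw [Int.cast_natCast, Nat.cast_div (Nat.gcd_dvd_left h x) h0',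
            Nat.cast_div (Nat.gcd_dvd_right h x) h0']
          field_simp⟩
        (by
          rintro ⟨m, hm⟩
          have b1 : (h : ℚ) / x < 1 := by rw [div_lt_one hxq]; exact_mod_cast hhx
          have b2 : 0 < (h : ℚ) / x := by positivity
          rw [hm] at b1 b2
          have b3 : m < 1 := by exact_mod_cast b1
          have b4 : 0 < m := by exact_mod_cast b2
          omega) Z
      have a4 : ((x / Nat.gcd h x : ℕ) : ℝ) ≤ Z / (2 * W) := by
        have : ((x / Nat.gcd h x : ℕ) : ℝ) ≤ V₀ := by exact_mod_cast hv.le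
        refine this.trans ?_
        rw [le_div_iff₀ (by positivity)]; linarith
      calc _ ≤ (Y.card * M) * (Z / (2 * W)) := by gcongr; exact a3.trans a4
        _ = _ := by ring
  have h4 : G 0 = -∑ h ∈ (range x).erase 0, G h := by
    rw [← add_sum_erase _ _ (mem_range.2 hx)] at h1
    exact eq_neg_of_add_eq_zero_left h1
  have h5 : M ^ 2 * ((Y.card * M) * Z) ≤ W * M ^ 2 * ((Y.card * M) * Z / (2 * W)) := by
    have b1 : M ^ 2 * ((Y.card * M) * Z) = ‖G 0‖ := by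
      rw [h2, Complex.norm_real, Real.norm_eq_abs, abs_of_nonneg (by positivity)]
    rw [b1, h4, norm_neg]
    refine (norm_sum_le _ _).trans ((sum_le_sum h3).trans ?_)
    rw [← sum_mul]
    gcongr
    exact (sum_le_sum_of_subset_of_nonneg (erase_subset _ _) fun _ _ _ => by positivity).trans hΦ
  have h6 : W * M ^ 2 * ((Y.card * M) * Z / (2 * W)) = M ^ 2 * ((Y.card * M) * Z) / 2 := by
    field_simp
  have h7 : 0 < M ^ 2 * ((Y.card * M) * Z) := by positivity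
  linarith

end Vale.Agent.P012
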