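import Mathlib

/-! Divisor counting for P012. -/

namespace Vale.Agent.P012

open Finset

theorem card_primePow_divisors {n l : ℕ} (hn : n ≠ 0) (hl : n ≤ 2 ^ l) :
    (n.divisors.filter IsPrimePow).card ≤ l := by
  have h1 := @ArithmeticFunction.vonMangoldt_sum n
  have h2 : ((n.divisors.filter IsPrimePow).card : ℝ) * Real.log 2 ≤ Real.log n := by
    rw [← h1, ← sum_filter_add_sum_filter_not n.divisors IsPrimePow]
    have h3 : 0 ≤ ∑ i ∈ n.divisors.filter (fun i => ¬ IsPrimePow i),
        ArithmeticFunction.vonMangoldt i :=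
      sum_nonneg fun _ _ => ArithmeticFunction.vonMangoldt_nonneg
    have h4 : ((n.divisors.filter IsPrimePow).card : ℝ) * Real.log 2 ≤
        ∑ i ∈ n.divisors.filter IsPrimePow, ArithmeticFunction.vonMangoldt i := by
      rw [← nsmul_eq_mul]
      apply card_nsmul_le_sum
      intro i hi
      have hp := (mem_filter.1 hi).2
      rw [ArithmeticFunction.vonMangoldt_apply, if_pos hp]
      apply Real.log_le_log (by norm_num)
      exact_mod_cast (Nat.minFac_prime hp.ne_one).two_le
    linarith
  have h5 : Real.log n ≤ l * Real.log 2 := by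
    rw [← Real.log_pow]
    apply Real.log_le_log (by positivity)
    exact_mod_cast hl
  have h6 : 0 < Real.log 2 := Real.log_pos (by norm_num)
  have : ((n.divisors.filter IsPrimePow).card : ℝ) ≤ l :=
    le_of_mul_le_mul_right (h2.trans h5) h6
  exact_mod_cast this

theorem card_divisors_few_primes {n l : ℕ} (hn : n ≠ 0) (hl : n ≤ 2 ^ l) (R : ℕ) :
    (n.divisors.filter (fun v => v.primeFactors.card ≤ R)).card ≤ (l + 1) ^ R := by
  induction R with
  | zero =>
    rw [pow_zero]
    apply card_le_one.2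
    intro a ha b hb
    simp only [mem_filter, Nat.mem_divisors, nonpos_iff_eq_zero, card_eq_zero,
      Nat.primeFactors_eq_empty] at ha hb
    have ha0 : a ≠ 0 := fun h => hn (by simpa [h] using ha.1.1)
    have hb0 : b ≠ 0 := fun h => hn (by simpa [h] using hb.1.1)
    omega
  | succ R ih =>
    have hsub : n.divisors.filter (fun v => v.primeFactors.card ≤ R + 1) ⊆
        image₂ (· * ·) (insert 1 (n.divisors.filter IsPrimePow))
          (n.divisors.filter (fun v => v.primeFactors.card ≤ R)) := by
      intro v hv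
      simp only [mem_filter, Nat.mem_divisors] at hv
      obtain ⟨⟨hvn, -⟩, hR⟩ := hv
      have hv0 : v ≠ 0 := fun h => hn (by simpa [h] using hvn)
      rw [mem_image₂]
      by_cases h1 : v = 1
      · exact ⟨1, by simp, 1, by simp [hn], by simp [h1]⟩
      · have hp := Nat.minFac_prime h1
        have hpv := Nat.minFac_dvd v
        refine ⟨ordProj[v.minFac] v, ?_, ordCompl[v.minFac] v, ?_,
          Nat.ordProj_mul_ordCompl_eq_self _ _⟩
        · apply mem_insert_of_mem
          simp only [mem_filter, Nat.mem_divisors]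
          refine ⟨⟨(Nat.ordProj_dvd _ _).trans hvn, hn⟩, ?_⟩
          exact hp.isPrimePow.pow (hp.factorization_pos_of_dvd hv0 hpv).ne'
        · simp only [mem_filter, Nat.mem_divisors]
          refine ⟨⟨(Nat.ordCompl_dvd _ _).trans hvn, hn⟩, ?_⟩
          rw [← Nat.support_factorization, Nat.factorization_ordCompl, Finsupp.support_erase,
            Nat.support_factorization, card_erase_of_mem (by simp [hp, hpv, hv0])]
          omega
    refine (card_le_card hsub).trans ((card_image₂_le _ _ _).trans ?_)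
    rw [pow_succ, mul_comm ((l + 1) ^ R)]
    apply Nat.mul_le_mul _ ih
    exact (card_insert_le _ _).trans (Nat.succ_le_succ (card_primePow_divisors hn hl))

theorem two_pow_le_card_divisors {n : ℕ} (hn : n ≠ 0) :
    2 ^ n.primeFactors.card ≤ n.divisors.card := by
  rw [Nat.card_divisors hn, ← prod_const]
  apply prod_le_prod'
  intro p hp
  have hp' := Nat.mem_primeFactors.1 hp
  exact Nat.succ_le_succ (hp'.1.factorization_pos_of_dvd hn hp'.2.1)

theorem card_divisors_le_two_mul {x H : ℕ} (hx : x ≤ H ^ 2) :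
    x.divisors.card ≤ 2 * ((Icc 1 H).filter (· ∣ x)).card := by
  have hsub : x.divisors ⊆ ((Icc 1 H).filter (· ∣ x)) ∪
      ((Icc 1 H).filter (· ∣ x)).image (fun d => x / d) := by
    intro d hd
    rw [Nat.mem_divisors] at hd
    obtain ⟨⟨c, hc⟩, hx0⟩ := hd
    have hd0 : 0 < d := Nat.pos_of_ne_zero (fun h => hx0 (by simp [hc, h]))
    have hc0 : 0 < c := Nat.pos_of_ne_zero (fun h => hx0 (by simp [hc, h]))
    by_cases h : d ≤ H
    · apply mem_union_left
      simp only [mem_filter, mem_Icc]
      exact ⟨⟨hd0, h⟩, c, hc⟩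
    · apply mem_union_right
      rw [mem_image]
      refine ⟨c, ?_, by rw [hc, Nat.mul_div_cancel _ hc0]⟩
      simp only [mem_filter, mem_Icc]
      refine ⟨⟨hc0, ?_⟩, d, by rw [hc, mul_comm]⟩
      by_contra h'
      have : H * H < d * c := Nat.mul_lt_mul'' (by omega) (by omega)
      nlinarith
  refine (card_le_card hsub).trans ((card_union_le _ _).trans ?_)
  have := card_image_le (s := (Icc 1 H).filter (· ∣ x)) (f := fun d => x / d)
  omega

theorem card_AP_dvd {x₀ q : ℕ} (hc : Nat.Coprime x₀ q) (H : ℕ) {v : ℕ} (_hv : 0 < v) :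
    (((range H).filter (fun n => v ∣ x₀ + q * n)).card : ℝ) ≤ (H : ℝ) / v + 1 := by
  have h1 : ((range H).filter (fun n => v ∣ x₀ + q * n)).card ≤ (range (H / v + 1)).card := by
    apply card_le_card_of_injOn (fun n => n / v)
    · intro n hn
      simp only [coe_filter, mem_range, Set.mem_ofPred_eq] at hn
      simp only [coe_range, Set.mem_Iio]
      exact Nat.lt_succ_of_le (Nat.div_le_div_right hn.1.le)
    · intro n hn n' hn' h
      simp only [coe_filter, mem_range, Set.mem_ofPred_eq] at hn hn'
      have hcop : Nat.Coprime v q := by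
        have : Nat.Coprime (x₀ + q * n) q := by simpa using hc
        exact Nat.Coprime.coprime_dvd_left hn.2 this
      have h2 : x₀ + q * n ≡ x₀ + q * n' [MOD v] :=
        ((Nat.modEq_zero_iff_dvd).2 hn.2).trans ((Nat.modEq_zero_iff_dvd).2 hn'.2).symm
      have h3 : n ≡ n' [MOD v] :=
        Nat.ModEq.cancel_left_of_coprime hcop (Nat.ModEq.add_left_cancel' _ h2)
      have h4 : n % v = n' % v := h3
      simp only at h
      rw [← Nat.div_add_mod n v, ← Nat.div_add_mod n' v, h, h4]
  rw [card_range] at h1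
  have h2 : ((H / v : ℕ) : ℝ) ≤ (H : ℝ) / v := Nat.cast_div_le
  have h3 : (((range H).filter (fun n => v ∣ x₀ + q * n)).card : ℝ) ≤ ((H / v + 1 : ℕ) : ℝ) := by
    exact_mod_cast h1
  push_cast at h3
  linarith

/-- At least half of the window has few prime factors. -/
theorem half_few_primes {x₀ q H R : ℕ} (hc : Nat.Coprime x₀ q) (hx₀ : 0 < x₀) (hx₀q : x₀ ≤ q)
    (hqH : q ≤ H) (hR : 4 * (2 + Real.log H) ≤ 2 ^ R) :
    (H : ℝ) ≤ 2 * (((range H).filter (fun n => (x₀ + q * n).primeFactors.card ≤ R)).card : ℝ) := by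
  set bad := (range H).filter (fun n => ¬ (x₀ + q * n).primeFactors.card ≤ R) with hbad
  have h0 : ((range H).filter (fun n => (x₀ + q * n).primeFactors.card ≤ R)).card + bad.card
      = H := by
    rw [hbad, card_filter_add_card_filter_not, card_range]
  have h1 : (bad.card : ℝ) * 2 ^ R ≤ ∑ n ∈ range H, ((x₀ + q * n).divisors.card : ℝ) := by
    calc (bad.card : ℝ) * 2 ^ R ≤ ∑ n ∈ bad, ((x₀ + q * n).divisors.card : ℝ) := by
          rw [← nsmul_eq_mul]
          apply card_nsmul_le_sum
          intro n hn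
          have h2 := (mem_filter.1 hn).2
          have h3 := two_pow_le_card_divisors (n := x₀ + q * n) (by omega)
          have h4 : 2 ^ R ≤ 2 ^ (x₀ + q * n).primeFactors.card :=
            Nat.pow_le_pow_right (by norm_num) (by omega)
          exact_mod_cast h4.trans h3
      _ ≤ _ := sum_le_sum_of_subset_of_nonneg (filter_subset _ _) fun _ _ _ => by positivity
  have h2 : ∑ n ∈ range H, ((x₀ + q * n).divisors.card : ℝ) ≤
      ∑ n ∈ range H, 2 * ∑ d ∈ Icc 1 H, (if d ∣ x₀ + q * n then (1 : ℝ) else 0) := by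
    apply sum_le_sum
    intro n hn
    have hn' := mem_range.1 hn
    have h3 : x₀ + q * n ≤ H ^ 2 := by
      calc x₀ + q * n ≤ q * (n + 1) := by rw [mul_add]; omega
        _ ≤ H * H := Nat.mul_le_mul hqH hn'
        _ = H ^ 2 := by ring
    have h4 := card_divisors_le_two_mul h3
    rw [sum_boole]
    exact_mod_cast h4
  have h3 : ∑ n ∈ range H, 2 * ∑ d ∈ Icc 1 H, (if d ∣ x₀ + q * n then (1 : ℝ) else 0)
      ≤ 2 * ∑ d ∈ Icc 1 H, ((H : ℝ) / d + 1) := by
    rw [← mul_sum, sum_comm]
    gcongr with d hd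
    rw [sum_boole]
    exact card_AP_dvd hc H (mem_Icc.1 hd).1
  have h4 : ∑ d ∈ Icc 1 H, ((H : ℝ) / d + 1) ≤ H * (2 + Real.log H) := by
    have h5 := harmonic_le_one_add_log H
    rw [harmonic_eq_sum_Icc] at h5
    push_cast at h5
    rw [sum_add_distrib]
    simp only [div_eq_mul_inv, ← mul_sum, sum_const, Nat.card_Icc, add_tsub_cancel_right,
      nsmul_eq_mul, mul_one]
    have : (H : ℝ) * ∑ i ∈ Icc 1 H, ((i : ℝ))⁻¹ ≤ H * (1 + Real.log H) := by gcongr
    linarith
  have h5 : (bad.card : ℝ) * 2 ^ R ≤ (H / 2) * 2 ^ R := by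
    have : (0 : ℝ) ≤ H := by positivity
    nlinarith
  have h6 : (bad.card : ℝ) ≤ H / 2 := le_of_mul_le_mul_right h5 (by positivity)
  have h7 : (((range H).filter (fun n => (x₀ + q * n).primeFactors.card ≤ R)).card : ℝ)
      + bad.card = H := by exact_mod_cast h0
  linarith

end Vale.Agent.P012
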