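import Vale.Agent.P012.Fourier
import Vale.Agent.P012.Divisors

/-! Averaging over the window of moduli. -/

namespace Vale.Agent.P012

open Finset

theorem phi_le_reduced (X : Finset ℕ) {x Q R : ℕ} (hx : 0 < x) (hxQ : x ≤ Q)
    (hR : x.primeFactors.card ≤ R) :
    ∑ h ∈ range x, ‖SS X ((h : ℚ) / x)‖ ^ 2 ≤
      ∑ p ∈ (((Icc 1 Q).filter (fun v => v.primeFactors.card ≤ R)) ×ˢ range Q).filter
        (fun p => p.2 < p.1 ∧ Nat.Coprime p.2 p.1),
        (if p.1 ∣ x then ‖SS X ((p.2 : ℚ) / p.1)‖ ^ 2 else 0) := by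
  rw [← sum_filter]
  have hg : ∀ h : ℕ, ((h / Nat.gcd h x : ℕ) : ℚ) / ((x / Nat.gcd h x : ℕ) : ℚ) = (h : ℚ) / x := by
    intro h
    have h0 : 0 < Nat.gcd h x := Nat.gcd_pos_of_pos_right _ hx
    have h0' : ((Nat.gcd h x : ℕ) : ℚ) ≠ 0 := by positivity
    rw [Nat.cast_div (Nat.gcd_dvd_left h x) h0', Nat.cast_div (Nat.gcd_dvd_right h x) h0']
    field_simp
  have hinj : Set.InjOn (fun h : ℕ => (x / Nat.gcd h x, h / Nat.gcd h x)) (range x) := by
    intro h _ h' _ he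
    simp only [Prod.mk.injEq] at he
    have h1 := hg h
    rw [he.1, he.2, hg h'] at h1
    have hxq : (x : ℚ) ≠ 0 := by positivity
    field_simp at h1
    exact_mod_cast h1.symm
  have := sum_image (f := fun p : ℕ × ℕ => ‖SS X ((p.2 : ℚ) / p.1)‖ ^ 2) hinj
  simp only [hg] at this
  rw [← this]
  apply sum_le_sum_of_subset_of_nonneg _ fun _ _ _ => by positivity
  intro p hp
  obtain ⟨h, hh, rfl⟩ := mem_image.1 hp
  have hh' := mem_range.1 hh
  have h0 : 0 < Nat.gcd h x := Nat.gcd_pos_of_pos_right _ hx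
  have hd : x / Nat.gcd h x ∣ x := Nat.div_dvd_of_dvd (Nat.gcd_dvd_right h x)
  have hle : x / Nat.gcd h x ≤ x := Nat.div_le_self _ _
  have hlt : h / Nat.gcd h x < x / Nat.gcd h x :=
    Nat.div_lt_div_of_lt_of_dvd (Nat.gcd_dvd_right h x) hh'
  simp only [mem_filter, mem_product, mem_Icc, mem_range]
  refine ⟨⟨⟨⟨⟨Nat.zero_lt_of_lt hlt, hle.trans hxQ⟩, ?_⟩, hlt.trans_le (hle.trans hxQ)⟩, hlt, Nat.coprime_div_gcd_div_gcd h0⟩, hd⟩
  exact (card_le_card (Nat.primeFactors_mono hd hx.ne')).trans hR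

theorem large_sieve (X : Finset ℕ) {N Q : ℕ} (hX : X ⊆ range N) (V : Finset ℕ)
    (hV : V ⊆ Icc 1 Q) :
    ∑ p ∈ (V ×ˢ range Q).filter (fun p => p.2 < p.1 ∧ Nat.Coprime p.2 p.1),
      ‖SS X ((p.2 : ℚ) / p.1)‖ ^ 2 ≤ X.card * (N + (Q : ℝ) ^ 4) := by
  set P := (V ×ˢ range Q).filter (fun p => p.2 < p.1 ∧ Nat.Coprime p.2 p.1) with hP
  have h1 := bessel P (fun p => (p.2 : ℚ) / p.1) X N ((Q : ℝ) ^ 2) (by positivity) hX (by
    rintro ⟨v, u⟩ hi ⟨v', u'⟩ hj hij
    simp only [hP, mem_filter, mem_product, mem_range] at hi hj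
    have hv := mem_Icc.1 (hV hi.1.1)
    have hv' := mem_Icc.1 (hV hj.1.1)
    have hvq : (0 : ℚ) < v := by exact_mod_cast hv.1
    have hvq' : (0 : ℚ) < v' := by exact_mod_cast hv'.1
    have := geom_bound (θ := (u : ℚ) / v - (u' : ℚ) / v') (v := v * v')
      (Nat.mul_pos hv.1 hv'.1) ⟨u * v' - u' * v, by push_cast; field_simp⟩ (by
        rintro ⟨m, hm⟩
        have a1 : (u : ℚ) / v < 1 := by rw [div_lt_one hvq]; exact_mod_cast hi.2.1
        have a2 : (u' : ℚ) / v' < 1 := by rw [div_lt_one hvq']; exact_mod_cast hj.2.1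
        have a3 : (0 : ℚ) ≤ (u : ℚ) / v := by positivity
        have a4 : (0 : ℚ) ≤ (u' : ℚ) / v' := by positivity
        have b1 : (m : ℚ) < 1 := by linarith
        have b2 : (-1 : ℚ) < m := by linarith
        have b3 : m < 1 := by exact_mod_cast b1
        have b4 : -1 < m := by exact_mod_cast b2
        have b5 : m = 0 := by omega
        subst b5
        have c1 : (u : ℚ) * v' = u' * v := by
          have : (u : ℚ) / v = u' / v' := by simpa [sub_eq_zero] using hm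
          rwa [div_eq_div_iff hvq.ne' hvq'.ne'] at this
        have c2 : u * v' = u' * v := by exact_mod_cast c1
        have d1 : v ∣ v' := hi.2.2.symm.dvd_of_dvd_mul_left ⟨u', by rw [c2, mul_comm]⟩
        have d2 : v' ∣ v := hj.2.2.symm.dvd_of_dvd_mul_left ⟨u, by rw [← c2, mul_comm]⟩
        have e1 : v = v' := Nat.dvd_antisymm d1 d2
        subst e1
        have e2 : u = u' := Nat.eq_of_mul_eq_mul_right hv.1 c2
        exact hij (by rw [e2])) N
    refine this.trans ?_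
    have : v * v' ≤ Q ^ 2 := by rw [sq]; exact Nat.mul_le_mul hv.2 hv'.2
    exact_mod_cast this)
  refine h1.trans ?_
  have h2 : P.card ≤ Q ^ 2 := by
    refine (card_filter_le _ _).trans ?_
    rw [card_product, card_range, sq]
    apply Nat.mul_le_mul_right
    simpa using card_le_card hV
  have h3 : (P.card : ℝ) ≤ (Q : ℝ) ^ 2 := by exact_mod_cast h2
  gcongr
  calc (P.card : ℝ) * (Q : ℝ) ^ 2 ≤ (Q : ℝ) ^ 2 * (Q : ℝ) ^ 2 := by gcongr
    _ = _ := by ring

theorem sum_collisions (X : Finset ℕ) {N l Q R : ℕ} (hX : X ⊆ range N) (hN : N ≤ 2 ^ l) :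
    ∑ v ∈ (Icc 1 Q).filter (fun v => v.primeFactors.card ≤ R),
      (((X ×ˢ X).filter (fun p => (v : ℤ) ∣ (p.1 : ℤ) - p.2)).card : ℝ)
      ≤ X.card * Q + (X.card : ℝ) ^ 2 * ((l + 1) ^ R : ℕ) := by
  set V := (Icc 1 Q).filter (fun v => v.primeFactors.card ≤ R) with hV
  simp only [← sum_boole]
  rw [sum_comm]
  calc ∑ p ∈ X ×ˢ X, ∑ v ∈ V, (if (v : ℤ) ∣ (p.1 : ℤ) - p.2 then (1 : ℝ) else 0)
      ≤ ∑ p ∈ X ×ˢ X, ((if p.1 = p.2 then (Q : ℝ) else 0) + ((l + 1) ^ R : ℕ)) := by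
        apply sum_le_sum
        rintro ⟨r, r'⟩ hp
        rw [sum_boole]
        simp only [mem_product] at hp
        have hr := mem_range.1 (hX hp.1)
        have hr' := mem_range.1 (hX hp.2)
        split_ifs with h
        · have : (V.filter (fun v : ℕ => (v : ℤ) ∣ (r : ℤ) - r')).card ≤ Q := by
            refine (card_filter_le _ _).trans ((card_filter_le _ _).trans ?_)
            simp
          have h2 : ((V.filter (fun v : ℕ => (v : ℤ) ∣ (r : ℤ) - r')).card : ℝ) ≤ Q := by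
            exact_mod_cast this
          have : (0 : ℝ) ≤ ((l + 1) ^ R : ℕ) := by positivity
          simp only
          linarith
        · simp only at h
          have h0 : ((r : ℤ) - r').natAbs ≠ 0 := by omega
          have h1 : ((r : ℤ) - r').natAbs ≤ 2 ^ l := by omega
          have h2 := card_divisors_few_primes h0 h1 R
          have h3 : V.filter (fun v : ℕ => (v : ℤ) ∣ (r : ℤ) - r') ⊆
              ((r : ℤ) - r').natAbs.divisors.filter (fun v => v.primeFactors.card ≤ R) := by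
            intro v hv
            simp only [hV, mem_filter, Nat.mem_divisors] at hv ⊢
            exact ⟨⟨Int.natCast_dvd.1 hv.2, h0⟩, hv.1.2⟩
          rw [zero_add]
          exact_mod_cast (card_le_card h3).trans h2
    _ = _ := by
        rw [sum_add_distrib, sum_const, card_product, nsmul_eq_mul, sum_product]
        congr 1
        · have : ∀ r ∈ X, ∑ r' ∈ X, (if r = r' then (Q : ℝ) else 0) = Q := by
            intro r hr; rw [sum_ite_eq]; simp [hr]
          rw [sum_congr rfl this]; simp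
        · push_cast; ring

theorem exists_good_modulus (X : Finset ℕ) {N l R x₀ q H : ℕ} (hX : X ⊆ range N)
    (hN : N ≤ 2 ^ l) (hc : Nat.Coprime x₀ q) (hx₀ : 0 < x₀) (hx₀q : x₀ ≤ q) (hqH : q ≤ H)
    (hR : 4 * (2 + Real.log H) ≤ 2 ^ R) (hQM : q * H ≤ X.card) (hNM : N ≤ X.card * H)
    (hQ4 : (q * H) ^ 4 ≤ X.card * H) :
    ∃ n < H, ∑ h ∈ range (x₀ + q * n), ‖SS X ((h : ℚ) / (x₀ + q * n : ℕ))‖ ^ 2 ≤
      8 * ((l + 1) ^ R : ℕ) * (X.card : ℝ) ^ 2 := by
  set Q := q * H with hQ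
  set V := (Icc 1 Q).filter (fun v => v.primeFactors.card ≤ R) with hV
  set P := (V ×ˢ range Q).filter (fun p => p.2 < p.1 ∧ Nat.Coprime p.2 p.1) with hP
  set F := (range H).filter (fun n => (x₀ + q * n).primeFactors.card ≤ R) with hF
  set W : ℝ := (((l + 1) ^ R : ℕ) : ℝ) with hW
  set M : ℝ := (X.card : ℝ) with hM
  have hW1 : 1 ≤ W := by
    rw [hW]; exact_mod_cast Nat.one_le_pow _ _ (Nat.succ_pos l)
  have hH : 0 < H := by omega
  have hF1 := half_few_primes hc hx₀ hx₀q hqH hR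
  rw [← hF] at hF1
  have hFne : F.Nonempty := by
    rw [← card_pos]
    have : (0 : ℝ) < H := by exact_mod_cast hH
    have : (0 : ℝ) < F.card := by linarith
    exact_mod_cast this
  have h1 : ∑ n ∈ F, ∑ h ∈ range (x₀ + q * n), ‖SS X ((h : ℚ) / (x₀ + q * n : ℕ))‖ ^ 2 ≤
      ∑ n ∈ range H, ∑ p ∈ P, (if p.1 ∣ x₀ + q * n then ‖SS X ((p.2 : ℚ) / p.1)‖ ^ 2 else 0) := by
    refine le_trans (sum_le_sum fun n hn => ?_)
      (sum_le_sum_of_subset_of_nonneg (filter_subset _ _) fun _ _ _ =>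
        sum_nonneg fun _ _ => by split_ifs <;> positivity)
    have hn' := mem_filter.1 hn
    have hn'' := mem_range.1 hn'.1
    apply phi_le_reduced X (by omega) _ hn'.2
    calc x₀ + q * n ≤ q * (n + 1) := by rw [mul_add]; omega
      _ ≤ q * H := Nat.mul_le_mul_left _ hn''
  have h2 : ∑ n ∈ range H, ∑ p ∈ P,
      (if p.1 ∣ x₀ + q * n then ‖SS X ((p.2 : ℚ) / p.1)‖ ^ 2 else 0) ≤
      ∑ p ∈ P, ((H : ℝ) / p.1 + 1) * ‖SS X ((p.2 : ℚ) / p.1)‖ ^ 2 := by
    rw [sum_comm]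
    apply sum_le_sum
    intro p hp
    rw [← sum_filter, sum_const, nsmul_eq_mul]
    have hp1 : 0 < p.1 := by
      simp only [hP, mem_filter] at hp; omega
    gcongr
    exact card_AP_dvd hc H hp1
  have h3 : ∑ p ∈ P, ‖SS X ((p.2 : ℚ) / p.1)‖ ^ 2 ≤ M * (N + (Q : ℝ) ^ 4) :=
    large_sieve X hX V (filter_subset _ _)
  have h4 : ∑ p ∈ P, (H : ℝ) / p.1 * ‖SS X ((p.2 : ℚ) / p.1)‖ ^ 2 ≤
      H * (M * Q + M ^ 2 * W) := by
    calc ∑ p ∈ P, (H : ℝ) / p.1 * ‖SS X ((p.2 : ℚ) / p.1)‖ ^ 2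
        ≤ ∑ p ∈ (V ×ˢ range Q).filter (fun p => p.2 < p.1),
            (H : ℝ) / p.1 * ‖SS X ((p.2 : ℚ) / p.1)‖ ^ 2 := by
          apply sum_le_sum_of_subset_of_nonneg _ fun _ _ _ => by positivity
          intro p hp
          simp only [hP, mem_filter] at hp ⊢
          exact ⟨hp.1, hp.2.1⟩
      _ = ∑ v ∈ V, (H : ℝ) / v * ∑ u ∈ range v, ‖SS X ((u : ℚ) / v)‖ ^ 2 := by
          rw [sum_filter, sum_product]
          refine sum_congr rfl fun v hv => ?_
          rw [← sum_filter, mul_sum]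
          have hv' : v ≤ Q := (mem_Icc.1 (mem_filter.1 hv).1).2
          have : (range Q).filter (fun u => u < v) = range v := by
            ext u; simp only [mem_filter, mem_range]; omega
          rw [this]
      _ = H * ∑ v ∈ V,
            (((X ×ˢ X).filter (fun p => (v : ℤ) ∣ (p.1 : ℤ) - p.2)).card : ℝ) := by
          rw [mul_sum]
          refine sum_congr rfl fun v hv => ?_
          have hv' : 0 < v := (mem_Icc.1 (mem_filter.1 hv).1).1
          rw [parseval X hv']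
          have : (v : ℝ) ≠ 0 := by positivity
          field_simp
      _ ≤ _ := by
          gcongr
          exact sum_collisions X hX hN
  have hQM' : (Q : ℝ) ≤ M := by rw [hM]; exact_mod_cast hQM
  have hNM' : (N : ℝ) ≤ M * H := by rw [hM]; exact_mod_cast hNM
  have hQ4' : (Q : ℝ) ^ 4 ≤ M * H := by rw [hM]; exact_mod_cast hQ4
  have hM0 : 0 ≤ M := by positivity
  have h5 : ∑ n ∈ F, ∑ h ∈ range (x₀ + q * n), ‖SS X ((h : ℚ) / (x₀ + q * n : ℕ))‖ ^ 2 ≤
      ∑ n ∈ F, 8 * W * M ^ 2 := by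
    refine h1.trans (h2.trans ?_)
    simp only [add_mul, one_mul, sum_add_distrib]
    rw [sum_const, nsmul_eq_mul]
    have e1 : (H : ℝ) * (M * Q + M ^ 2 * W) ≤ H * (M * M * W + M ^ 2 * W) := by
      have : M * Q ≤ M * M * W := by
        calc M * Q ≤ M * M := by gcongr
          _ = M * M * 1 := by ring
          _ ≤ M * M * W := by gcongr
      gcongr
    have e2 : M * (N + (Q : ℝ) ^ 4) ≤ M * (M * H * W + M * H * W) := by
      have : M * H ≤ M * H * W := le_mul_of_one_le_right (by positivity) hW1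
      gcongr <;> linarith
    have e3 : (H : ℝ) * (4 * W * M ^ 2) ≤ (2 * F.card) * (4 * W * M ^ 2) := by gcongr
    nlinarith
  obtain ⟨n, hn, hn2⟩ := exists_le_of_sum_le hFne h5
  exact ⟨n, mem_range.1 (mem_filter.1 hn).1, hn2⟩

end Vale.Agent.P012
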