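import Vale.Agent.P012.Blocks
import Vale.Agent.P012.Sieve
import Vale.Agent.P012.Count

/-! The core step with abstract parameters. -/

namespace Vale.Agent.P012

open Finset

theorem scale_exists {b₁ b γ b₂ κ ρ k : ℕ}
    (hdense : ∀ G : ℝ, 1 ≤ G → G ≤ b₁ → ∃ g : ℕ, g ∣ b₁ ∧ (g : ℝ) ≤ G ∧ G ≤ g * b)
    (hγ0 : 0 < γ) (hb₂ : b₁ = γ * b₂) (hκ : b * γ ≤ κ) (hρ : 2 ≤ ρ) (hρb : ρ ^ k ≤ b₁) (i : ℕ) :
    ∃ g : ℕ, i < k → g ∣ b₂ ∧ g ≤ ρ ^ i ∧ ρ ^ i ≤ g * κ := by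
  by_cases hi : i < k
  · have e1 : ρ ^ i ≤ b₁ := (Nat.pow_le_pow_right (by omega) hi.le).trans hρb
    obtain ⟨g, g1, g2, g3⟩ := hdense ((ρ ^ i : ℕ) : ℝ)
      (by exact_mod_cast Nat.one_le_pow _ _ (by omega)) (by exact_mod_cast e1)
    have g2' : g ≤ ρ ^ i := by exact_mod_cast g2
    have g3' : ρ ^ i ≤ g * b := by exact_mod_cast g3
    have hδ : 0 < Nat.gcd g γ := Nat.gcd_pos_of_pos_right _ hγ0
    obtain ⟨g', hg'⟩ := Nat.gcd_dvd_left g γ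
    obtain ⟨γ', hγ'⟩ := Nat.gcd_dvd_right g γ
    have e2 : Nat.Coprime g' γ' := by
      have := Nat.coprime_div_gcd_div_gcd (m := g) (n := γ) hδ
      rwa [Nat.div_eq_of_eq_mul_right hδ hg', Nat.div_eq_of_eq_mul_right hδ hγ'] at this
    refine ⟨g', fun _ => ⟨?_, ?_, ?_⟩⟩
    · apply e2.dvd_of_dvd_mul_left
      apply Nat.dvd_of_mul_dvd_mul_left hδ
      rw [← hg', ← mul_assoc, ← hγ', ← hb₂]
      exact g1
    · exact (Nat.le_mul_of_pos_left _ hδ).trans (hg' ▸ g2')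
    · have e3 : Nat.gcd g γ ≤ γ := Nat.gcd_le_right _ hγ0
      calc ρ ^ i ≤ g * b := g3'
        _ = g' * (b * Nat.gcd g γ) := by conv_lhs => rw [hg']
                                         ring
        _ ≤ g' * κ := by
          apply Nat.mul_le_mul_left
          exact (Nat.mul_le_mul_left _ e3).trans hκ
  · exact ⟨0, fun h => absurd h hi⟩

theorem window_exists {q b₂ : ℕ} (hq0 : 0 < q) (hqb : Nat.Coprime q b₂) :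
    ∃ x₀ n₀ : ℕ, 0 < x₀ ∧ x₀ ≤ q ∧ 0 < n₀ ∧ x₀ + b₂ = q * n₀ ∧ Nat.Coprime x₀ q := by
  obtain ⟨x₀, n₀, hx₀, hx₀q, hn₀, hx₀e⟩ : ∃ x₀ n₀ : ℕ, 0 < x₀ ∧ x₀ ≤ q ∧ 0 < n₀ ∧
      x₀ + b₂ = q * n₀ := by
    refine ⟨q - b₂ % q, b₂ / q + 1, ?_, ?_, Nat.succ_pos _, ?_⟩
    · have := Nat.mod_lt b₂ hq0; omega
    · omega
    · have := Nat.mod_lt b₂ hq0
      have := Nat.div_add_mod b₂ q
      rw [mul_add]; omega
  refine ⟨x₀, n₀, hx₀, hx₀q, hn₀, hx₀e, ?_⟩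
  apply Nat.Coprime.symm
  rw [Nat.coprime_iff_gcd_eq_one] at hqb ⊢
  apply Nat.eq_one_of_dvd_one
  rw [← hqb]
  refine Nat.dvd_gcd (Nat.gcd_dvd_left _ _) ?_
  have e1 : Nat.gcd q x₀ ∣ x₀ + b₂ := hx₀e ▸ (Nat.gcd_dvd_left _ _).mul_right _
  exact (Nat.dvd_add_right (Nat.gcd_dvd_right _ _)).1 e1

theorem dilates_exist {j B y' : ℕ} (τ' : Fin j × Fin B → ℕ) (hinj' : Function.Injective τ')
    (hp' : ∀ i, (τ' i).Prime) (hy'' : ∀ i, τ' i ≤ y') :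
    ∃ (LY : ℕ) (Y : Finset ℕ), 0 < LY ∧ LY ≤ y' ^ (j * B) ∧ Y.card = B ^ j ∧
      ∀ e ∈ Y, e ≤ y' ^ j ∧ e ∣ LY := by
  classical
  refine ⟨∏ p : Fin j × Fin B, τ' p,
    (univ : Finset (Fin j → Fin B)).image (fun σ => ∏ i, τ' (i, σ i)),
    prod_pos fun _ _ => (hp' _).pos, ?_, ?_, ?_⟩
  · refine (prod_le_pow_card _ _ y' fun _ _ => hy'' _).trans ?_
    simp
  · rw [card_image_of_injective]
    · simp
    · intro σ σ' he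
      funext i
      obtain ⟨i', -, h3⟩ := prime_prod_eq univ _ _ (fun _ => hp' _) (fun _ => hp' _) he i
        (mem_univ _)
      have h4 := hinj' h3
      simp only [Prod.mk.injEq] at h4
      obtain ⟨h5, h6⟩ := h4
      subst h5
      exact h6
  · intro e he
    obtain ⟨σ, -, rfl⟩ := mem_image.1 he
    constructor
    · refine (prod_le_pow_card _ _ y' fun _ _ => hy'' _).trans ?_
      simp
    · rw [Fintype.prod_prod_type]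
      exact prod_dvd_prod_of_dvd _ _ fun i _ =>
        dvd_prod_of_mem (fun c => τ' (i, c)) (mem_univ (σ i))

theorem sep_exists {b₁ J β p0 j0 y y' : ℕ}
    (τ : (Fin J × Fin β) × Fin p0 → ℕ) (hinj : Function.Injective τ) (hp : ∀ i, (τ i).Prime)
    (hy : ∀ i, y ≤ τ i) (hy' : ∀ i, τ i ≤ y') (hτb : ∀ i, ¬ τ i ∣ b₁)
    (hy0 : 0 < y) (hp0 : 0 < p0) (h1 : 4 * β ^ J ≤ p0 ^ j0) :
    ∃ (L₁ : ℕ) (A : Finset ℕ), 0 < L₁ ∧ L₁ ≤ y' ^ (J * β) ∧ Nat.Coprime L₁ b₁ ∧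
      β ^ J ≤ 2 * A.card ∧ (∀ d ∈ A, d ∣ L₁ ∧ 1 ≤ d ∧ d ≤ y' ^ J) ∧
      ∀ d ∈ A, ∀ d' ∈ A, d < d' → d + y ^ (J - j0) ≤ d' := by
  obtain ⟨ω, A, hA1, hA2, hA3⟩ := exists_separated τ hinj hp hy hy0 hp0 h1
  refine ⟨∏ p : Fin J × Fin β, τ (p, ω p), A, prod_pos fun _ _ => (hp _).pos, ?_,
    Nat.Coprime.prod_left fun p _ => (Nat.Prime.coprime_iff_not_dvd (hp _)).2 (hτb _),
    hA1, ?_, hA3⟩
  · refine (prod_le_pow_card _ _ y' fun _ _ => hy' _).trans ?_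
    simp
  · intro d hd
    obtain ⟨σ, rfl⟩ := hA2 d hd
    refine ⟨?_, prod_pos fun _ _ => (hp _).pos, ?_⟩
    · rw [Fintype.prod_prod_type]
      exact prod_dvd_prod_of_dvd _ _ fun i _ =>
        dvd_prod_of_mem (fun c => τ ((i, c), ω (i, c))) (mem_univ (σ i))
    · refine (prod_le_pow_card _ _ y' fun _ _ => hy' _).trans ?_
      simp

theorem final_identity {a₁ b₁ L γ q b₂ x₀ n₀ n : ℕ} (hL0 : 0 < L) (hγ0 : 0 < γ) (hb₂0 : 0 < b₂)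
    (hn₀ : 0 < n₀) (hq : a₁ * L = γ * q) (hb₂ : b₁ = γ * b₂) (hx₀e : x₀ + b₂ = q * n₀) :
    (a₁ : ℚ) / b₁ = 1 / ((L * (n₀ + n) : ℕ) : ℚ) +
      ((x₀ + q * n : ℕ) : ℚ) / (((b₂ * L : ℕ) : ℚ) * ((n₀ + n : ℕ) : ℚ)) := by
  have c1 : (a₁ : ℚ) = γ * q / L := by
    rw [eq_div_iff (by positivity)]; exact_mod_cast hq
  have c2 : (b₁ : ℚ) = γ * b₂ := by exact_mod_cast hb₂
  have c3 : (x₀ : ℚ) = q * n₀ - b₂ := by
    rw [eq_sub_iff_add_eq]; exact_mod_cast hx₀e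
  have : (0 : ℚ) < n₀ + n := by positivity
  have : (0 : ℚ) < L := by positivity
  have : (0 : ℚ) < b₂ := by positivity
  have : (0 : ℚ) < γ := by positivity
  push_cast
  rw [c1, c2, c3]
  field_simp
  ring

theorem core {a₁ b₁ b J β p0 j0 y y' k ρ κ B j j' H l R N V₀ Λ α : ℕ}
    (ha₁ : 1 ≤ a₁) (hb₁ : 0 < b₁)
    (hdense : ∀ G : ℝ, 1 ≤ G → G ≤ b₁ → ∃ g : ℕ, g ∣ b₁ ∧ (g : ℝ) ≤ G ∧ G ≤ g * b)
    (τ : (Fin J × Fin β) × Fin p0 → ℕ) (hinj : Function.Injective τ) (hp : ∀ i, (τ i).Prime)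
    (hy : ∀ i, y ≤ τ i) (hy' : ∀ i, τ i ≤ y') (hτb : ∀ i, ¬ τ i ∣ b₁)
    (τ' : Fin j × Fin B → ℕ) (hinj' : Function.Injective τ') (hp' : ∀ i, (τ' i).Prime)
    (hy'' : ∀ i, τ' i ≤ y')
    (hy0 : 0 < y) (hp0 : 0 < p0) (h1 : 4 * β ^ J ≤ p0 ^ j0) (hα : 2 * α ≤ β ^ J) (hα0 : 0 < α)
    (hk : 0 < k) (hρ : 2 ≤ ρ) (hρb : ρ ^ k ≤ b₁)
    (hκ : b * (a₁ * (y' ^ (j * B) * (B.factorial * B ^ j'))) ≤ κ)
    (hκρ : 2 * κ * y' ^ J < ρ * y ^ (J - j0))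
    (hΛ : a₁ * (y' ^ (J * β) * (y' ^ (j * B) * (B.factorial * B ^ j'))) ≤ Λ) (hΛH : Λ ≤ H)
    (hN : y' ^ J * ρ ^ k < N) (hNl : N ≤ 2 ^ l) (hR : 4 * (2 + Real.log H) ≤ 2 ^ R)
    (hQM : Λ * H ≤ α ^ k) (hNM : N ≤ α ^ k * H) (hQ4 : (Λ * H) ^ 4 ≤ α ^ k * H)
    (hV : y' ^ j < V₀) (hY : 4 * (8 * (l + 1) ^ R) ^ 3 ≤ B ^ j)
    (hZ : 2 * (8 * (l + 1) ^ R) * V₀ ≤ B ^ j') (hB : 0 < B) :
    UF (1 + (k + k + k + j')) ((a₁ : ℚ) / b₁) := by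
  obtain ⟨L₁, A, hL₁0, hL₁le, hcop, hA1, hA2, hA3⟩ := sep_exists τ hinj hp hy hy' hτb hy0 hp0 h1
  obtain ⟨LY, Y, hLY0, hLYle, hYc, hYp⟩ := dilates_exist τ' hinj' hp' hy''
  have hdig := sumDiv_digits B j'
  have hLs0 : 0 < B.factorial * B ^ j' := Nat.mul_pos (Nat.factorial_pos _) (by positivity)
  generalize B.factorial * B ^ j' = Ls at hκ hΛ hdig hLs0
  obtain ⟨L, hL⟩ : ∃ L, L = L₁ * (LY * Ls) := ⟨_, rfl⟩
  have hL0 : 0 < L := by rw [hL]; positivity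
  obtain ⟨γ, hγ⟩ : ∃ γ, γ = Nat.gcd (a₁ * L) b₁ := ⟨_, rfl⟩
  have hγ0 : 0 < γ := hγ ▸ Nat.gcd_pos_of_pos_right _ hb₁
  have hγ1 : γ ∣ a₁ * L := hγ ▸ Nat.gcd_dvd_left _ _
  have hγ2 : γ ∣ b₁ := hγ ▸ Nat.gcd_dvd_right _ _
  have hγle : γ ≤ a₁ * (y' ^ (j * B) * Ls) := by
    have e1 : γ ∣ a₁ * (LY * Ls) := by
      have e2 : γ ∣ L₁ * (a₁ * (LY * Ls)) := by
        rwa [hL, mul_left_comm] at hγ1
      exact (Nat.Coprime.coprime_dvd_right hγ2 hcop).symm.dvd_of_dvd_mul_left e2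
    refine (Nat.le_of_dvd (by positivity) e1).trans ?_
    gcongr
  obtain ⟨q, hq⟩ := hγ1
  obtain ⟨b₂, hb₂⟩ := hγ2
  have hqb : Nat.Coprime q b₂ := by
    have := Nat.coprime_div_gcd_div_gcd (m := a₁ * L) (n := b₁) (hγ ▸ hγ0)
    rw [← hγ] at this
    rwa [hq, hb₂, Nat.mul_div_cancel_left _ hγ0, Nat.mul_div_cancel_left _ hγ0] at this
  have hq0 : 0 < q := by
    have : 0 < γ * q := by rw [← hq]; positivity
    exact Nat.pos_of_mul_pos_left this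
  have hb₂0 : 0 < b₂ := by
    have : 0 < γ * b₂ := by rw [← hb₂]; positivity
    exact Nat.pos_of_mul_pos_left this
  have hqΛ : q ≤ Λ := by
    calc q ≤ γ * q := Nat.le_mul_of_pos_left _ hγ0
      _ = a₁ * (L₁ * (LY * Ls)) := by rw [← hq, hL]
      _ ≤ a₁ * (y' ^ (J * β) * (y' ^ (j * B) * Ls)) := by gcongr
      _ ≤ Λ := hΛ
  obtain ⟨x₀, n₀, hx₀, hx₀q, hn₀, hx₀e, hx₀c⟩ := window_exists hq0 hqb
  have hg : ∀ i : ℕ, ∃ g : ℕ, i < k → g ∣ b₂ ∧ g ≤ ρ ^ i ∧ ρ ^ i ≤ g * κ := fun i =>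
    scale_exists hdense hγ0 hb₂ ((Nat.mul_le_mul_left _ hγle).trans hκ) hρ hρb i
  choose g hg using hg
  obtain ⟨X, hX1, hX2⟩ := exists_sumset A (E := b₂) g k hA2 hA3 hρ hκρ hg
  have hXN : X ⊆ range N := by
    intro e he
    have e1 := (hX2 e he).2.2
    rw [mem_range]
    refine lt_of_le_of_lt ?_ hN
    have e2 : e * 2 ≤ e * ρ := Nat.mul_le_mul_left _ hρ
    have e3 : 2 * y' ^ J * ρ ^ k = y' ^ J * ρ ^ k * 2 := by ring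
    omega
  have hM : α ^ k ≤ X.card := by
    rw [hX1]; apply Nat.pow_le_pow_left; omega
  have hXne : X.Nonempty := by
    rw [← card_pos]; exact lt_of_lt_of_le (by positivity) hM
  obtain ⟨n, -, hn⟩ := exists_good_modulus X (R := R) hXN hNl hx₀c hx₀ hx₀q (hqΛ.trans hΛH) hR
    ((Nat.mul_le_mul_right _ hqΛ).trans (hQM.trans hM))
    (hNM.trans (Nat.mul_le_mul_right _ hM))
    ((Nat.pow_le_pow_left (Nat.mul_le_mul_right _ hqΛ) _).trans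
      (hQ4.trans (Nat.mul_le_mul_right _ hM)))
  have hYV : Y ⊆ range V₀ := fun e he => mem_range.2 (lt_of_le_of_lt (hYp e he).1 hV)
  have hx : 0 < x₀ + q * n := by omega
  obtain ⟨r₁, h₁, r₂, h₂, r₃, h₃, e, he, z, hz, hdvd⟩ :=
    exists_dvd_sum X Y (V₀ := V₀) (Z := B ^ j') (W := 8 * ((l + 1) ^ R : ℕ)) hx
      (by
        have : 1 ≤ 8 * (l + 1) ^ R := by
          have := Nat.one_le_pow R (l + 1) (Nat.succ_pos l); omega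
        exact_mod_cast this) hXne hn hYV
      (by rw [hYc]; exact_mod_cast hY) (by exact_mod_cast hZ)
  have d1 : b₂ * L₁ ∣ b₂ * L := mul_dvd_mul_left _ ⟨_, hL⟩
  have d2 : LY * (b₂ * L₁) ∣ b₂ * L := ⟨Ls, by rw [hL]; ring⟩
  have d3 : Ls ∣ b₂ * L := ⟨b₂ * L₁ * LY, by rw [hL]; ring⟩
  have hS := ((((hX2 r₁ h₁).1.dvd d1).add ((hX2 r₂ h₂).1.dvd d1)).add
    (((hX2 r₃ h₃).1.mul (hYp e he).2).dvd d2)).add ((hdig z hz).dvd d3)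
  have hT : 0 < r₁ + r₂ + e * r₃ + z := by
    have := (hX2 r₁ h₁).2.1; omega
  have hU := (UF.one (n := L * (n₀ + n)) (by positivity)).add
    (hS.uf_of_dvd (by positivity) hT hdvd (n := n₀ + n) (by positivity))
  rw [final_identity (n := n) hL0 hγ0 hb₂0 hn₀ hq hb₂ hx₀e]
  exact hU

end Vale.Agent.P012
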