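import Vale.Agent.P012.Main

/-! Final forms, free of auxiliary definitions. -/

namespace Vale.Agent.P012

open Finset

theorem pow_big (t : ℕ) (ht : 100 ≤ t) : 2 ^ 70 * t ^ 2 ≤ 2 ^ t := by
  induction t, ht using Nat.le_induction with
  | base => norm_num
  | succ t ht ih =>
    have : (t + 1) ^ 2 ≤ 2 * t ^ 2 := by nlinarith
    calc 2 ^ 70 * (t + 1) ^ 2 ≤ 2 ^ 70 * (2 * t ^ 2) := by gcongr
      _ = 2 * (2 ^ 70 * t ^ 2) := by ring
      _ ≤ 2 * 2 ^ t := by gcongr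
      _ = 2 ^ (t + 1) := by ring

theorem to_strictMono {a b k : ℕ} (ha : 1 ≤ a) (hab : a < b) (h : UF k ((a : ℚ) / b)) :
    ∃ m, m ≤ k ∧ 1 ≤ m ∧ ∃ n : Fin m → ℕ, StrictMono n ∧ (∀ i, 2 ≤ n i) ∧
      ∑ i, (1 : ℚ) / n i = (a : ℚ) / b := by
  have hb : 0 < b := by omega
  obtain ⟨S, h1, h2, h3⟩ := UF.distinct hb hab h
  refine ⟨S.card, h1, ?_, S.orderEmbOfFin rfl, (S.orderEmbOfFin rfl).strictMono,
    fun i => h2 _ (orderEmbOfFin_mem _ _ _), ?_⟩
  · rw [Nat.one_le_iff_ne_zero, Ne, card_eq_zero]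
    rintro rfl
    have : (0 : ℚ) < (a : ℚ) / b := by positivity
    rw [sum_empty] at h3
    linarith
  · rw [← h3]
    conv_rhs => rw [← image_orderEmbOfFin_univ S rfl]
    rw [sum_image fun i _ j _ hij => (S.orderEmbOfFin rfl).injective hij]

theorem exists_expansion {a b : ℕ} (ha : 1 ≤ a) (hab : a < b) :
    ∃ m, 1 ≤ m ∧ ∃ n : Fin m → ℕ, StrictMono n ∧ (∀ i, 2 ≤ n i) ∧
      ∑ i, (1 : ℚ) / n i = (a : ℚ) / b := by
  have : UF a ((a : ℚ) / b) := by
    refine ⟨Multiset.replicate a b, by simp, ?_, ?_⟩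
    · intro n hn
      rw [Multiset.eq_of_mem_replicate hn]; omega
    · simp [div_eq_mul_inv]
  obtain ⟨m, -, h⟩ := to_strictMono ha hab this
  exact ⟨m, h⟩

theorem eventually_loglog (c : ℝ) : ∃ b₀ : ℕ, ∀ b : ℕ, b₀ ≤ b → c ≤ Real.log (Real.log b) := by
  have := (Real.tendsto_log_atTop.comp (Real.tendsto_log_atTop.comp
    tendsto_natCast_atTop_atTop)).eventually_ge_atTop c
  simpa using this

theorem upper {b : ℕ} (hb : 100 ≤ Real.log (Real.log b)) {a : ℕ} (ha : 1 ≤ a) (hab : a < b) :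
    ∃ m : ℕ, (m : ℝ) ≤ 2 ^ 55 * Real.log (Real.log b) ∧ 1 ≤ m ∧ ∃ n : Fin m → ℕ, StrictMono n ∧
      (∀ i, 2 ≤ n i) ∧ ∑ i, (1 : ℚ) / n i = (a : ℚ) / b := by
  set L := Real.log (Real.log b) with hL
  have hb1 : (1 : ℝ) < b := by exact_mod_cast (show 1 < b by omega)
  have hlb : 0 < Real.log b := Real.log_pos hb1
  have h4 : ∀ x : ℝ, 0 ≤ x → Real.exp x ≤ (2 : ℝ) ^ (2 * x) := by
    intro x hx
    rw [Real.rpow_def_of_pos (by norm_num), Real.exp_le_exp]
    have := Real.log_two_gt_d9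
    nlinarith
  set t := ⌈2 * L⌉₊ + 1 with ht
  have ht1 : 2 * L + 1 ≤ t := by
    rw [ht]; push_cast; have := Nat.le_ceil (2 * L); linarith
  have ht2 : (t : ℝ) ≤ 4 * L := by
    rw [ht]; push_cast
    have := Nat.ceil_lt_add_one (show 0 ≤ 2 * L by linarith)
    linarith
  have ht3 : 100 ≤ t := by
    have : (100 : ℝ) ≤ t := by linarith
    exact_mod_cast this
  have h5 : 2 * Real.log b ≤ (2 : ℝ) ^ t := by
    calc 2 * Real.log b = 2 * Real.exp L := by rw [hL, Real.exp_log hlb]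
      _ ≤ 2 * (2 : ℝ) ^ (2 * L) := by gcongr; exact h4 L (by linarith)
      _ = (2 : ℝ) ^ (2 * L + 1) := by rw [Real.rpow_add (by norm_num)]; simp [mul_comm]
      _ ≤ (2 : ℝ) ^ (t : ℝ) := Real.rpow_le_rpow_of_exponent_le (by norm_num) ht1
      _ = _ := Real.rpow_natCast _ _
  have h6 : b ≤ 2 ^ (2 ^ t) := by
    have : (b : ℝ) ≤ (2 : ℝ) ^ (2 ^ t : ℕ) := by
      calc (b : ℝ) = Real.exp (Real.log b) := (Real.exp_log (by linarith)).symm
        _ ≤ (2 : ℝ) ^ (2 * Real.log b) := h4 _ hlb.le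
        _ ≤ (2 : ℝ) ^ (((2 ^ t : ℕ) : ℝ)) :=
            Real.rpow_le_rpow_of_exponent_le (by norm_num) (by exact_mod_cast h5)
        _ = _ := Real.rpow_natCast _ _
    exact_mod_cast this
  obtain ⟨m, h7, h8⟩ := to_strictMono ha hab (main_t (by omega) (pow_big t ht3) ha hab h6)
  refine ⟨m, ?_, h8⟩
  have : (m : ℝ) ≤ 2 ^ 53 * t := by exact_mod_cast h7
  linarith

theorem lower {b m : ℕ} (hb : 2 ≤ b) (hm : 1 ≤ m) (n : Fin m → ℕ) (h2 : ∀ i, 2 ≤ n i)
    (h : ∑ i, (1 : ℚ) / n i = ((b - 1 : ℕ) : ℚ) / b) :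
    Real.log (Real.log b) ≤ 4 * m := by
  have h1 := denom_bound (m + 1) (b ::ₘ (univ : Finset (Fin m)).val.map n) 1 1 (by simp)
    (by
      intro e he
      rcases Multiset.mem_cons.1 he with h | h
      · omega
      · obtain ⟨i, -, rfl⟩ := Multiset.mem_map.1 h
        have := h2 i; omega) one_pos
    (by
      rw [Multiset.map_cons, Multiset.sum_cons, Multiset.map_map]
      have : (((univ : Finset (Fin m)).val.map ((fun n : ℕ => (1 : ℚ) / n) ∘ n)).sum)
          = ∑ i, (1 : ℚ) / n i := rfl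
      rw [this, h, Nat.cast_sub (by omega)]
      have : (b : ℚ) ≠ 0 := by positivity
      field_simp
      push_cast; ring) b (Multiset.mem_cons_self _ _)
  rw [mul_one] at h1
  have hb1 : (1 : ℝ) < b := by exact_mod_cast (show 1 < b by omega)
  have hlb : 0 < Real.log b := Real.log_pos hb1
  have hm1 : (1 : ℝ) ≤ m := by exact_mod_cast hm
  have h3 : Real.log b ≤ 2 ^ (m + 1) * (m + 1) := by
    calc Real.log b ≤ Real.log ((((m + 1) ^ 2 ^ (m + 1) : ℕ)) : ℝ) :=
          Real.log_le_log (by linarith) (by exact_mod_cast h1)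
      _ = 2 ^ (m + 1) * Real.log (m + 1) := by push_cast; rw [Real.log_pow]; push_cast; ring
      _ ≤ _ := by
          gcongr
          exact (Real.log_le_sub_one_of_pos (by positivity)).trans (by linarith)
  calc Real.log (Real.log b) ≤ Real.log (2 ^ (m + 1) * (m + 1)) := Real.log_le_log hlb h3
    _ = (m + 1) * Real.log 2 + Real.log (m + 1) := by
        rw [Real.log_mul (by positivity) (by positivity), Real.log_pow]; push_cast; ring
    _ ≤ 4 * m := by
        have a1 := Real.log_two_lt_d9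
        have a2 := Real.log_le_sub_one_of_pos (show (0 : ℝ) < m + 1 by positivity)
        nlinarith

end Vale.Agent.P012
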