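import Mathlib

/-! Exponential sums for P012. -/

namespace Vale.Agent.P012

open Finset

/-- `e(θ) = exp(2 π i θ)`. -/
noncomputable def ee (θ : ℚ) : ℂ := Complex.exp ((θ : ℂ) * (2 * Real.pi * Complex.I))

theorem ee_add (a b : ℚ) : ee (a + b) = ee a * ee b := by
  simp [ee, add_mul, Complex.exp_add]

theorem ee_zero : ee 0 = 1 := by simp [ee]

theorem ee_norm (a : ℚ) : ‖ee a‖ = 1 := by
  have : (a : ℂ) * (2 * Real.pi * Complex.I) = ((a * (2 * Real.pi) : ℝ) : ℂ) * Complex.I := by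
    push_cast; ring
  rw [ee, this, Complex.norm_exp_ofReal_mul_I]

theorem ee_eq_one_iff (a : ℚ) : ee a = 1 ↔ ∃ n : ℤ, a = n := by
  rw [ee, Complex.exp_eq_one_iff]
  have h : (2 * Real.pi * Complex.I : ℂ) ≠ 0 := by
    simp [Real.pi_ne_zero, Complex.I_ne_zero]
  constructor
  · rintro ⟨n, hn⟩
    refine ⟨n, ?_⟩
    have := mul_right_cancel₀ h hn
    exact_mod_cast this
  · rintro ⟨n, rfl⟩
    exact ⟨n, by simp⟩

theorem ee_int (n : ℤ) : ee n = 1 := (ee_eq_one_iff _).2 ⟨n, rfl⟩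

theorem ee_nat_mul (n : ℕ) (a : ℚ) : ee (n * a) = ee a ^ n := by
  induction n with
  | zero => simp [ee_zero]
  | succ n ih => push_cast; rw [add_mul, ee_add, ih, one_mul, pow_succ]

theorem ee_conj (a : ℚ) : (starRingEnd ℂ) (ee a) = ee (-a) := by
  rw [ee, ee, ← Complex.exp_conj]
  congr 1
  simp [Complex.conj_ofReal, map_ofNat]

theorem geom_bound {θ : ℚ} {v : ℕ} (hv : 0 < v) (h1 : ∃ m : ℤ, v * θ = m)
    (h2 : ¬ ∃ n : ℤ, θ = n) (N : ℕ) : ‖∑ n ∈ range N, ee (n * θ)‖ ≤ v := by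
  have hz : ee θ ≠ 1 := fun h => h2 ((ee_eq_one_iff _).1 h)
  have hzv : ee θ ^ v = 1 := by
    obtain ⟨m, hm⟩ := h1
    rw [← ee_nat_mul, hm, ee_int]
  simp only [ee_nat_mul]
  have : ∑ n ∈ range N, ee θ ^ n = ∑ n ∈ range (N % v), ee θ ^ n := by
    rw [geom_sum_eq hz, geom_sum_eq hz]
    congr 2
    conv_lhs => rw [← Nat.div_add_mod N v, pow_add, pow_mul, hzv, one_pow, one_mul]
  rw [this]
  refine (norm_sum_le _ _).trans ?_
  simp only [norm_pow, ee_norm, one_pow, sum_const, card_range, nsmul_eq_mul, mul_one]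
  exact_mod_cast (Nat.mod_lt N hv).le

theorem orth {x : ℕ} (hx : 0 < x) (n : ℤ) :
    ∑ h ∈ range x, ee (h * ((n : ℚ) / x)) = if (x : ℤ) ∣ n then (x : ℂ) else 0 := by
  have hxq : (x : ℚ) ≠ 0 := by positivity
  split_ifs with hd
  · obtain ⟨c, rfl⟩ := hd
    have : ∀ h ∈ range x, ee (h * ((((x : ℤ) * c : ℤ) : ℚ) / x)) = 1 := by
      intro h _
      rw [ee_eq_one_iff]
      exact ⟨h * c, by push_cast; field_simp⟩
    rw [sum_congr rfl this]; simp
  · have hz : ee ((n : ℚ) / x) ≠ 1 := by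
      intro h
      obtain ⟨c, hc⟩ := (ee_eq_one_iff _).1 h
      apply hd
      refine ⟨c, ?_⟩
      have : (n : ℚ) = x * c := by field_simp at hc; linarith
      exact_mod_cast this
    simp only [ee_nat_mul]
    rw [geom_sum_eq hz, ← ee_nat_mul]
    have : (x : ℚ) * (n / x) = (n : ℤ) := by field_simp
    rw [this, ee_int]; simp

/-- The exponential sum over a finite set of naturals. -/
noncomputable def SS (X : Finset ℕ) (θ : ℚ) : ℂ := ∑ r ∈ X, ee (r * θ)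

theorem SS_norm_le (X : Finset ℕ) (θ : ℚ) : ‖SS X θ‖ ≤ X.card := by
  refine (norm_sum_le _ _).trans ?_
  simp [ee_norm]

theorem SS_add_int (X : Finset ℕ) (θ : ℚ) (m : ℤ) : SS X (θ + m) = SS X θ := by
  unfold SS
  refine sum_congr rfl fun r _ => ?_
  rw [mul_add, ee_add]
  have : (r : ℚ) * m = ((r * m : ℤ) : ℚ) := by push_cast; ring
  rw [this, ee_int, mul_one]

theorem normSq_eq (z : ℂ) : ((‖z‖ ^ 2 : ℝ) : ℂ) = z * (starRingEnd ℂ) z := by
  rw [Complex.mul_conj, Complex.normSq_eq_norm_sq]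

theorem parseval (X : Finset ℕ) {v : ℕ} (hv : 0 < v) :
    ∑ h ∈ range v, ‖SS X ((h : ℚ) / v)‖ ^ 2 =
      v * (((X ×ˢ X).filter (fun p => (v : ℤ) ∣ (p.1 : ℤ) - p.2)).card : ℝ) := by
  apply Complex.ofReal_injective
  push_cast
  have h1 : ∀ h ∈ range v, ((‖SS X ((h : ℚ) / v)‖ : ℂ)) ^ 2 =
      ∑ p ∈ X ×ˢ X, ee (h * ((((p.1 : ℤ) - p.2 : ℤ) : ℚ) / v)) := by
    intro h _
    have := normSq_eq (SS X ((h : ℚ) / v))
    push_cast at this
    rw [this, SS, map_sum, sum_mul_sum, sum_product]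
    refine sum_congr rfl fun r _ => sum_congr rfl fun r' _ => ?_
    rw [ee_conj, ← ee_add]
    congr 1
    push_cast; ring
  rw [sum_congr rfl h1, sum_comm]
  simp only [orth hv]
  rw [← sum_filter]
  simp [mul_comm]

theorem bessel {ι : Type*} [DecidableEq ι] (P : Finset ι) (θ : ι → ℚ) (X : Finset ℕ) (N : ℕ)
    (K : ℝ) (hK : 0 ≤ K) (hX : X ⊆ range N)
    (hθ : ∀ i ∈ P, ∀ j ∈ P, i ≠ j → ‖∑ n ∈ range N, ee (n * (θ i - θ j))‖ ≤ K) :
    ∑ i ∈ P, ‖SS X (θ i)‖ ^ 2 ≤ X.card * (N + P.card * K) := by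
  set c : ι → ℂ := fun i => SS X (θ i) with hc
  set A : ℝ := ∑ i ∈ P, ‖c i‖ ^ 2 with hA
  set F : ℕ → ℂ := fun n => ∑ i ∈ P, (starRingEnd ℂ) (c i) * ee (n * θ i) with hF
  have hA0 : 0 ≤ A := sum_nonneg fun _ _ => by positivity
  have h1 : (A : ℂ) = ∑ r ∈ X, F r := by
    simp only [hA, hF]
    rw [sum_comm]
    push_cast
    refine sum_congr rfl fun i _ => ?_
    have := normSq_eq (c i)
    push_cast at this
    rw [this, ← mul_sum, mul_comm]
    rfl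
  have h2 : A ≤ ∑ r ∈ X, ‖F r‖ := by
    have : A = ‖(A : ℂ)‖ := by simp [abs_of_nonneg hA0]
    rw [this, h1]
    exact norm_sum_le _ _
  have h3 : (∑ r ∈ X, ‖F r‖) ^ 2 ≤ X.card * ∑ r ∈ X, ‖F r‖ ^ 2 := sq_sum_le_card_mul_sum_sq
  have h4 : ∑ r ∈ X, ‖F r‖ ^ 2 ≤ ∑ r ∈ range N, ‖F r‖ ^ 2 :=
    sum_le_sum_of_subset_of_nonneg hX fun _ _ _ => by positivity
  have h5 : ((∑ r ∈ range N, ‖F r‖ ^ 2 : ℝ) : ℂ) = ∑ i ∈ P, ∑ j ∈ P,
      (starRingEnd ℂ) (c i) * c j * ∑ n ∈ range N, ee (n * (θ i - θ j)) := by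
    push_cast
    have : ∀ n ∈ range N, ((‖F n‖ : ℂ)) ^ 2 = ∑ i ∈ P, ∑ j ∈ P,
        (starRingEnd ℂ) (c i) * c j * ee (n * (θ i - θ j)) := by
      intro n _
      have := normSq_eq (F n)
      push_cast at this
      rw [this]
      simp only [hF]
      rw [map_sum, sum_mul_sum]
      refine sum_congr rfl fun i _ => sum_congr rfl fun j _ => ?_
      rw [map_mul, ee_conj, Complex.conj_conj, mul_sub, sub_eq_add_neg, ee_add]
      ring
    rw [sum_congr rfl this, sum_comm]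
    refine sum_congr rfl fun i _ => ?_
    rw [sum_comm]
    refine sum_congr rfl fun j _ => ?_
    rw [mul_sum]
  have h6 : ∑ r ∈ range N, ‖F r‖ ^ 2 ≤ ∑ i ∈ P, ∑ j ∈ P,
      ((if i = j then N * ‖c i‖ ^ 2 else 0) + K * (‖c i‖ * ‖c j‖)) := by
    have h0 : 0 ≤ ∑ r ∈ range N, ‖F r‖ ^ 2 := sum_nonneg fun _ _ => by positivity
    have : ∑ r ∈ range N, ‖F r‖ ^ 2 = ‖((∑ r ∈ range N, ‖F r‖ ^ 2 : ℝ) : ℂ)‖ := by
      rw [Complex.norm_real, Real.norm_eq_abs, abs_of_nonneg h0]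
    rw [this, h5]
    refine (norm_sum_le _ _).trans (sum_le_sum fun i hi => ?_)
    refine (norm_sum_le _ _).trans (sum_le_sum fun j hj => ?_)
    rw [norm_mul, norm_mul, Complex.norm_conj]
    split_ifs with hij
    · subst hij
      simp only [sub_self, mul_zero, ee_zero, sum_const, card_range, nsmul_eq_mul, mul_one,
        Complex.norm_natCast]
      have : 0 ≤ K * (‖c i‖ * ‖c i‖) := by positivity
      nlinarith
    · have := hθ i hi j hj hij
      have h7 : 0 ≤ ‖c i‖ * ‖c j‖ := by positivity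
      nlinarith
  have h7 : ∑ i ∈ P, ∑ j ∈ P,
      ((if i = j then N * ‖c i‖ ^ 2 else 0) + K * (‖c i‖ * ‖c j‖))
      = N * A + K * (∑ i ∈ P, ‖c i‖) ^ 2 := by
    simp only [sum_add_distrib]
    congr 1
    · rw [hA, mul_sum]
      refine sum_congr rfl fun i hi => ?_
      rw [sum_ite_eq]; simp [hi]
    · rw [sq, sum_mul_sum, mul_sum]
      refine sum_congr rfl fun i _ => ?_
      rw [mul_sum]
  have h8 : (∑ i ∈ P, ‖c i‖) ^ 2 ≤ P.card * A := sq_sum_le_card_mul_sum_sq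
  have h9 : A ^ 2 ≤ X.card * ((N + P.card * K) * A) := by
    calc A ^ 2 ≤ (∑ r ∈ X, ‖F r‖) ^ 2 := by gcongr
      _ ≤ X.card * ∑ r ∈ X, ‖F r‖ ^ 2 := h3
      _ ≤ X.card * (N * A + K * (P.card * A)) := by
        gcongr
        refine h4.trans (h6.trans ?_)
        rw [h7]; gcongr
      _ = _ := by ring
  rcases hA0.eq_or_lt with h | h
  · rw [← h]; positivity
  · have : A * A ≤ (X.card * (N + P.card * K)) * A := by nlinarith
    exact le_of_mul_le_mul_right this h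

end Vale.Agent.P012
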