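import Vale.Agent.P012.Basic

/-! The greedy stage. -/

namespace Vale.Agent.P012

/-- Sylvester-type growth sequence. -/
def syl : ℕ → ℕ
  | 0 => 1
  | j + 1 => syl j * (syl j + 1)

theorem syl_ge (j : ℕ) : 2 ^ (2 ^ j) ≤ syl (j + 1) := by
  induction j with
  | zero => simp [syl]
  | succ j ih =>
    have : syl (j + 1 + 1) = syl (j + 1) * (syl (j + 1) + 1) := rfl
    rw [this, pow_succ 2 j, pow_mul, sq]
    exact Nat.mul_le_mul ih (ih.trans (Nat.le_succ _))

theorem greedy (a b : ℕ) (ha : 1 ≤ a) (hab : a < b) (j : ℕ) :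
    UF j ((a : ℚ) / b) ∨ ∃ a' b' : ℕ, 1 ≤ a' ∧ a' ≤ a ∧ a' * syl j < b' ∧ b' ≤ b ^ (2 ^ j) ∧
      UF j ((a : ℚ) / b - a' / b') ∧
      ∀ G : ℝ, 1 ≤ G → G ≤ b' → ∃ g : ℕ, g ∣ b' ∧ (g : ℝ) ≤ G ∧ G ≤ g * b := by
  induction j with
  | zero =>
    right
    refine ⟨a, b, ha, le_rfl, by simpa [syl] using hab, by simp, by simpa using UF.zero 0, ?_⟩
    intro G h1 h2
    exact ⟨1, one_dvd _, by simpa using h1, by simpa using h2⟩
  | succ j ih =>
    rcases ih with h | ⟨a', b', h1, h2, h3, h4, h5, h6⟩
    · left; exact h.mono (Nat.le_succ j)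
    · have hs : 1 ≤ syl j := by
        cases j with
        | zero => simp [syl]
        | succ j => exact le_trans Nat.one_le_two_pow (syl_ge j)
      have hb' : 0 < b' := by omega
      -- n = ceil (b'/a')
      obtain ⟨n, hn1, hn2⟩ : ∃ n : ℕ, b' ≤ a' * (n + 1) ∧ a' * n < b' := by
        refine ⟨(b' - 1) / a', ?_, ?_⟩
        · have := Nat.lt_mul_div_succ (b' - 1) (show 0 < a' by omega)
          omega
        · have := Nat.mul_div_le (b' - 1) a'
          omega
      have hns : syl j ≤ n := by
        by_contra hc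
        have : a' * (n + 1) ≤ a' * syl j := Nat.mul_le_mul_left _ (by omega)
        omega
      have hnb : n + 1 ≤ b' := by nlinarith
      have hq : (a' : ℚ) / b' - 1 / ((n + 1 : ℕ) : ℚ)
          = ((a' * (n + 1) - b' : ℕ) : ℚ) / ((b' * (n + 1) : ℕ) : ℚ) := by
        rw [Nat.cast_sub hn1]
        have : (b' : ℚ) ≠ 0 := by positivity
        push_cast
        field_simp
      have hUF := h5.add (UF.one (n := n + 1) (Nat.succ_pos n))
      rcases Nat.eq_zero_or_pos (a' * (n + 1) - b') with h0 | h0
      · left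
        rw [h0] at hq
        convert hUF using 1
        simp only [Nat.cast_zero, zero_div] at hq
        linarith
      · right
        refine ⟨a' * (n + 1) - b', b' * (n + 1), h0, ?_, ?_, ?_, ?_, ?_⟩
        · have : a' * (n + 1) = a' * n + a' := by ring
          omega
        · have e1 : syl (j + 1) = syl j * (syl j + 1) := rfl
          have e2 : a' * (n + 1) - b' < a' := by
            have : a' * (n + 1) = a' * n + a' := by ring
            omega
          rw [e1]
          calc (a' * (n + 1) - b') * (syl j * (syl j + 1))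
              ≤ a' * (n * (n + 1)) := by gcongr
            _ = (a' * n) * (n + 1) := by ring
            _ < b' * (n + 1) := by gcongr
        · rw [pow_succ 2 j, pow_mul, sq]
          exact Nat.mul_le_mul h4 (hnb.trans h4)
        · convert hUF using 1
          rw [← hq]; ring
        · intro G hG1 hG2
          by_cases hG : G ≤ b'
          · obtain ⟨g, hg1, hg2⟩ := h6 G hG1 hG
            exact ⟨g, hg1.mul_right _, hg2⟩
          · push Not at hG
            have hn0 : (0 : ℝ) < ((n + 1 : ℕ) : ℝ) := by positivity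
            have hnb' : ((n + 1 : ℕ) : ℝ) ≤ b' := by exact_mod_cast hnb
            obtain ⟨g, hg1, hg2, hg3⟩ := h6 (G / ((n + 1 : ℕ) : ℝ))
              (by rw [le_div_iff₀ hn0]; linarith)
              (by rw [div_le_iff₀ hn0]; exact_mod_cast hG2)
            refine ⟨g * (n + 1), mul_dvd_mul_right hg1 _, ?_, ?_⟩
            · rw [le_div_iff₀ hn0] at hg2; exact_mod_cast hg2
            · rw [div_le_iff₀ hn0] at hg3
              push_cast at hg3 ⊢; linarith

end Vale.Agent.P012
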