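import Vale.Agent.P012.Core
import Vale.Agent.P012.Greedy

/-! Choice of the parameters. -/

namespace Vale.Agent.P012

open Finset

theorem prime_pool (m s : ℕ) (hm : 4 * m ^ 2 = 2 ^ s) :
    2 * m ^ 2 ≤ (Nat.primesLE (4 * m ^ 2) \ Nat.primesLE (m ^ 2)).card * s + (s + 1) + 4 * m * s := by
  have h1 := Chebyshev.theta_ge (4 * m ^ 2)
  have h2 := Chebyshev.theta_le_log4_mul_x (x := ((m ^ 2 : ℕ) : ℝ)) (by positivity)
  rw [Chebyshev.theta_eq_sum_primesLE_log] at h1 h2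
  have hsub : Nat.primesLE (m ^ 2) ⊆ Nat.primesLE (4 * m ^ 2) := Nat.primesLE_mono (by omega)
  rw [← sum_sdiff hsub] at h1
  have hl2 : 0 < Real.log 2 := Real.log_pos (by norm_num)
  have hlog : Real.log ((4 * m ^ 2 : ℕ) : ℝ) = s * Real.log 2 := by
    rw [hm]; push_cast; rw [Real.log_pow]
  have h3 : ∑ p ∈ Nat.primesLE (4 * m ^ 2) \ Nat.primesLE (m ^ 2), Real.log p ≤
      (Nat.primesLE (4 * m ^ 2) \ Nat.primesLE (m ^ 2)).card * (s * Real.log 2) := by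
    rw [← nsmul_eq_mul]
    apply sum_le_card_nsmul
    intro p hp
    have hp' := Nat.mem_primesLE.1 (mem_sdiff.1 hp).1
    rw [← hlog]
    apply Real.log_le_log (by exact_mod_cast hp'.2.pos)
    exact_mod_cast hp'.1
  have h4 : Real.log (((4 * m ^ 2 : ℕ) : ℝ) + 1) ≤ (s + 1) * Real.log 2 := by
    have : ((s : ℝ) + 1) * Real.log 2 = Real.log (2 ^ (s + 1)) := by
      rw [Real.log_pow]; push_cast; ring
    rw [this]
    apply Real.log_le_log (by positivity)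
    rw [hm]
    have : 2 ^ s + 1 ≤ 2 ^ (s + 1) := by
      have := Nat.one_le_two_pow (n := s); rw [pow_succ]; omega
    exact_mod_cast this
  have h5 : Real.sqrt ((4 * m ^ 2 : ℕ) : ℝ) = 2 * m := by
    rw [Real.sqrt_eq_iff_mul_self_eq (by positivity) (by positivity)]; push_cast; ring
  have h6 : Real.log 4 = 2 * Real.log 2 := by
    rw [show (4 : ℝ) = 2 ^ 2 by norm_num, Real.log_pow]; norm_num
  rw [h5, hlog] at h1
  rw [h6] at h2
  set c := (Nat.primesLE (4 * m ^ 2) \ Nat.primesLE (m ^ 2)).card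
  have h7 : (2 * (m : ℝ) ^ 2) * Real.log 2 ≤ (c * s + (s + 1) + 4 * m * s) * Real.log 2 := by
    push_cast at h1 h2 h4
    nlinarith
  have h8 := le_of_mul_le_mul_right h7 hl2
  exact_mod_cast h8

theorem exists_pool {ι : Type*} [Fintype ι] (S : Finset ℕ) (h : Fintype.card ι ≤ S.card) :
    ∃ τ : ι → ℕ, Function.Injective τ ∧ ∀ i, τ i ∈ S := by
  obtain ⟨f⟩ := Function.Embedding.nonempty_of_card_le (α := ι) (β := S) (by simpa using h)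
  exact ⟨fun i => f i, fun i j hij => f.injective (Subtype.ext hij), fun i => (f i).2⟩

theorem pool_big {t B b₁ : ℕ} (hBt : B = 2 ^ t) (ht : 2 ≤ t) (hB : 2 ^ 70 * t ^ 2 ≤ B)
    (hb₁ : b₁ ≠ 0) (hb : b₁ ≤ 2 ^ (2 * B ^ 4)) :
    ∃ S : Finset ℕ, 2 ^ 46 * t * B ^ 42 ≤ S.card ∧
      ∀ p ∈ S, p.Prime ∧ 2 ^ (44 * t) ≤ p ∧ p ≤ 2 ^ (44 * t + 2) ∧ ¬ p ∣ b₁ := by
  have e1 : (B ^ 22) ^ 2 = 2 ^ (44 * t) := by rw [hBt, ← pow_mul, ← pow_mul]; congr 1; ring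
  have e2 : 4 * (B ^ 22) ^ 2 = 2 ^ (44 * t + 2) := by rw [e1, pow_add]; ring
  have h1 := prime_pool (B ^ 22) (44 * t + 2) e2
  rw [e2] at h1
  nth_rewrite 2 [e1] at h1
  set P := Nat.primesLE (2 ^ (44 * t + 2)) \ Nat.primesLE (2 ^ (44 * t)) with hP
  have hB1 : 1 ≤ B := le_trans (by nlinarith) hB
  have hBt' : 2 ^ 47 * t ≤ B := le_trans (by nlinarith) hB
  have h2 : B ^ 43 ≤ P.card := by
    by_contra hc
    push Not at hc
    have a1 : P.card * (44 * t + 2) ≤ B ^ 43 * (46 * t) := Nat.mul_le_mul hc.le (by omega)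
    have a2 : B ^ 22 ≤ B ^ 43 := Nat.pow_le_pow_right hB1 (by norm_num)
    have a3 : 1 ≤ B ^ 43 := Nat.one_le_pow _ _ hB1
    have a4 : 4 * B ^ 22 * (44 * t + 2) ≤ 4 * B ^ 43 * (46 * t) := by gcongr; omega
    have a5 : 44 * t + 2 + 1 ≤ B ^ 43 * (46 * t) := by nlinarith
    have a6 : (B ^ 22) ^ 2 = B ^ 43 * B := by ring
    have a7 : B ^ 43 * (2 ^ 47 * t) ≤ B ^ 43 * B := Nat.mul_le_mul_left _ hBt'
    have a8 : 0 < B ^ 43 * t := Nat.mul_pos a3 (by omega)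
    nlinarith
  refine ⟨P.filter (fun p => ¬ p ∣ b₁), ?_, ?_⟩
  · have a1 := card_filter_add_card_filter_not (s := P) (fun p => p ∣ b₁)
    have a2 : (P.filter (fun p => p ∣ b₁)).card ≤ 2 * B ^ 4 := by
      refine le_trans (card_le_card ?_) (card_primePow_divisors hb₁ hb)
      intro p hp
      simp only [hP, mem_filter, mem_sdiff, Nat.mem_primesLE, Nat.mem_divisors] at hp ⊢
      exact ⟨⟨hp.2, hb₁⟩, hp.1.1.2.isPrimePow⟩
    have a3 : B ^ 4 ≤ B ^ 42 := Nat.pow_le_pow_right hB1 (by norm_num)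
    have a4 : B ^ 43 = B * B ^ 42 := by ring
    have a5 : 2 ^ 47 * t * B ^ 42 ≤ B * B ^ 42 := Nat.mul_le_mul_right _ hBt'
    have a6 : 2 * B ^ 42 ≤ t * B ^ 42 := Nat.mul_le_mul_right _ ht
    nlinarith
  · intro p hp
    simp only [hP, mem_filter, mem_sdiff, Nat.mem_primesLE] at hp
    refine ⟨hp.1.1.2, ?_, hp.1.1.1, hp.2⟩
    by_contra hc
    exact hp.1.2 ⟨by omega, hp.1.1.2⟩

theorem two_pow_mono {m n : ℕ} (h : m ≤ n) : 2 ^ m ≤ 2 ^ n := Nat.pow_le_pow_right (by norm_num) h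

theorem two_pow_smono {m n : ℕ} (h : m < n) : 2 ^ m < 2 ^ n := Nat.pow_lt_pow_right (by norm_num) h

section numeric

variable {t B u w : ℕ}

theorem num_basic (ht : 2 ≤ t) (hB : 2 ^ 70 * t ^ 2 ≤ B) (hu : u = t * B ^ 2)
    (hw : w = 2 ^ 51 * t * u) :
    2 ^ 70 * t ≤ B ∧ 4 * t ≤ u ∧ 2 ^ 11 * w ≤ B ^ 3 ∧ 1 ≤ w ∧ u ≤ t * u ∧
      w = 2 ^ 51 * (t * u) ∧ 2 * B + 2864 * t ^ 2 * B ≤ 40 * u ∧ 40 * B ^ 2 + 1 ≤ 40 * u := by
  have h0 : t ≤ t ^ 2 := Nat.le_self_pow (by norm_num) _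
  have hB1 : 2 ^ 70 * t ≤ B := le_trans (Nat.mul_le_mul_left _ h0) hB
  have hB0 : 0 < B := by omega
  have hBB : B ≤ B ^ 2 := Nat.le_self_pow (by norm_num) _
  have hu1 : 4 * t ≤ u := by
    rw [hu, mul_comm 4 t]; apply Nat.mul_le_mul_left; omega
  have htu : u ≤ t * u := Nat.le_mul_of_pos_left _ (by omega)
  have a3 : w = 2 ^ 51 * (t * u) := by rw [hw]; ring
  refine ⟨hB1, hu1, ?_, by omega, htu, a3, ?_, ?_⟩
  · calc 2 ^ 11 * w = 2 ^ 62 * t ^ 2 * B ^ 2 := by rw [hw, hu]; ring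
      _ ≤ B * B ^ 2 := by gcongr; omega
      _ = B ^ 3 := by ring
  · have a1 : B ≤ t ^ 2 * B := Nat.le_mul_of_pos_left _ (by positivity)
    have a2 : t * B * (72 * t) ≤ t * B * B := by gcongr; omega
    have a4 : t * B * (72 * t) = 72 * (t ^ 2 * B) := by ring
    have a5 : t * B * B = u := by rw [hu]; ring
    have a6 : 2864 * t ^ 2 * B = 2864 * (t ^ 2 * B) := by ring
    omega
  · have a1 : 2 * B ^ 2 ≤ t * B ^ 2 := Nat.mul_le_mul_right _ ht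
    omega

theorem num_small (ht : 2 ≤ t) (hBt : B = 2 ^ t) :
    (2 ^ (44 * t + 2)) ^ (31 * t * B) * (B.factorial * B ^ (1437 * t)) ≤
      2 ^ (2864 * t ^ 2 * B) := by
  have hB0 : 0 < B := by rw [hBt]; positivity
  have e1 : B.factorial ≤ 2 ^ (t * B) := by
    rw [pow_mul, ← hBt]; exact Nat.factorial_le_pow B
  have e2 : B ^ (1437 * t) = 2 ^ (t * (1437 * t)) := by rw [pow_mul 2 t, ← hBt]
  calc _ ≤ (2 ^ (44 * t + 2)) ^ (31 * t * B) * (2 ^ (t * B) * 2 ^ (t * (1437 * t))) := by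
        rw [e2]; gcongr
    _ = 2 ^ ((44 * t + 2) * (31 * t * B) + (t * B + t * (1437 * t))) := by
        rw [← pow_mul, ← pow_add, ← pow_add]
    _ ≤ _ := by
        apply two_pow_mono
        have a1 : (44 * t + 2) * (31 * t * B) ≤ (46 * t) * (31 * t * B) := by gcongr; omega
        have a2 : t * B ≤ t ^ 2 * B := by gcongr; nlinarith
        have a3 : t ^ 2 ≤ t ^ 2 * B := Nat.le_mul_of_pos_right _ hB0
        nlinarith

theorem num_sep (hu : u = t * B ^ 2) (hu1 : 4 * t ≤ u) (_ht : 2 ≤ t)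
    (a1 : 40 * B ^ 2 + 1 ≤ 40 * u) :
    2 * 2 ^ (40 * u) * (2 ^ (44 * t + 2)) ^ (40 * u) <
      2 ^ (1921 * u) * (2 ^ (44 * t)) ^ (40 * u - (40 * B ^ 2 + 1)) := by
  rw [← pow_mul, ← pow_mul, ← pow_succ', ← pow_add, ← pow_add]
  apply two_pow_smono
  obtain ⟨c, hc⟩ := Nat.exists_eq_add_of_le a1
  have a2 : 40 * u - (40 * B ^ 2 + 1) = c := by omega
  rw [a2]
  have a3 : (44 * t + 2) * (40 * u) = 44 * t * (40 * B ^ 2 + 1 + c) + 80 * u := by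
    rw [← hc]; ring
  have a4 : 44 * t * (40 * B ^ 2 + 1 + c) = 1760 * u + 44 * t + 44 * t * c := by
    rw [hu]; ring
  omega

theorem num_Y {l : ℕ} (ht : 2 ≤ t) (hBt : B = 2 ^ t) (hl1 : l + 1 ≤ 2 ^ (3 * t)) :
    4 * (8 * (l + 1) ^ (3 * t)) ^ 3 ≤ B ^ (31 * t) ∧
    2 * (8 * (l + 1) ^ (3 * t)) * 2 ^ (1426 * t ^ 2 + 1) ≤ B ^ (1437 * t) ∧
    (2 ^ (44 * t + 2)) ^ (31 * t) < 2 ^ (1426 * t ^ 2 + 1) := by
  have hl2 : (l + 1) ^ (3 * t) ≤ 2 ^ (9 * t ^ 2) := by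
    refine (Nat.pow_le_pow_left hl1 _).trans ?_
    rw [← pow_mul]; apply two_pow_mono; apply le_of_eq; ring
  refine ⟨?_, ?_, ?_⟩
  · calc _ ≤ 2 ^ 2 * (2 ^ 3 * 2 ^ (9 * t ^ 2)) ^ 3 := by gcongr <;> norm_num
      _ ≤ _ := by
        rw [hBt, ← pow_add, ← pow_mul, ← pow_add, ← pow_mul]; apply two_pow_mono; nlinarith
  · calc _ ≤ 2 ^ 1 * (2 ^ 3 * 2 ^ (9 * t ^ 2)) * 2 ^ (1426 * t ^ 2 + 1) := by
          gcongr <;> norm_num
      _ ≤ _ := by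
        rw [hBt, ← pow_add, ← pow_add, ← pow_add, ← pow_mul]; apply two_pow_mono; nlinarith
  · rw [← pow_mul]; apply two_pow_smono; nlinarith

theorem num_log {R : ℕ} (h : 4 * (2 + 323 * w) ≤ 2 ^ R) :
    4 * (2 + Real.log ((2 ^ (323 * w) : ℕ) : ℝ)) ≤ 2 ^ R := by
  have a1 : Real.log ((2 ^ (323 * w) : ℕ) : ℝ) ≤ 323 * w := by
    push_cast
    rw [Real.log_pow]
    have := Real.log_two_lt_d9
    push_cast
    have : (0 : ℝ) ≤ 323 * w := by positivity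
    nlinarith
  have a3 : (4 : ℝ) * (2 + 323 * w) ≤ 2 ^ R := by exact_mod_cast h
  linarith

theorem num_pool (hBt : B = 2 ^ t) (hu : u = t * B ^ 2) :
    40 * u * 2 ^ 40 * 2 ^ (40 * t) ≤ 2 ^ 46 * t * B ^ 42 ∧ 31 * t * B ≤ 2 ^ 46 * t * B ^ 42 := by
  constructor
  · have : 2 ^ (40 * t) = B ^ 40 := by rw [hBt, ← pow_mul, mul_comm]
    rw [this, hu]
    calc 40 * (t * B ^ 2) * 2 ^ 40 * B ^ 40 = 40 * 2 ^ 40 * (t * B ^ 42) := by ring
      _ ≤ 2 ^ 46 * (t * B ^ 42) := by gcongr; norm_num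
      _ = _ := by ring
  · have : B ≤ B ^ 42 := Nat.le_self_pow (by norm_num) _
    gcongr; norm_num

theorem num_Lam {a₁ s : ℕ} (ht : 2 ≤ t) (ha : a₁ ≤ 2 ^ B) (hs : s ≤ 2 ^ (2864 * t ^ 2 * B))
    (h1 : 2 * B + 2864 * t ^ 2 * B ≤ 40 * u) (htu : u ≤ t * u) (a3 : w = 2 ^ 51 * (t * u))
    (hw : 1 ≤ w) :
    a₁ * ((2 ^ (44 * t + 2)) ^ (40 * u * 2 ^ 40) * s) ≤ 2 ^ w ∧
    (2 ^ (44 * t + 2)) ^ (40 * u) * 2 ^ (1921 * w) < 2 ^ (1922 * w) := by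
  constructor
  · calc _ ≤ 2 ^ B * ((2 ^ (44 * t + 2)) ^ (40 * u * 2 ^ 40) * 2 ^ (2864 * t ^ 2 * B)) := by
          gcongr
      _ ≤ _ := by
          rw [← pow_mul, ← pow_add, ← pow_add]; apply two_pow_mono
          have a1 : (44 * t + 2) * (40 * u * 2 ^ 40) ≤ (46 * t) * (40 * u * 2 ^ 40) := by
            gcongr; omega
          have a2 : (46 * t) * (40 * u * 2 ^ 40) = 1840 * 2 ^ 40 * (t * u) := by ring
          omega
  · rw [← pow_mul, ← pow_add]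
    apply two_pow_smono
    have a1 : (44 * t + 2) * (40 * u) ≤ (46 * t) * (40 * u) := by gcongr; omega
    have a2 : (46 * t) * (40 * u) = 1840 * (t * u) := by ring
    omega

end numeric

theorem main_t {t a b : ℕ} (ht : 2 ≤ t) (hB : 2 ^ 70 * t ^ 2 ≤ 2 ^ t) (ha : 1 ≤ a) (hab : a < b)
    (hb : b ≤ 2 ^ (2 ^ t)) : UF (2 ^ 53 * t) ((a : ℚ) / b) := by
  obtain ⟨B, hBt⟩ : ∃ B, B = 2 ^ t := ⟨_, rfl⟩
  rw [← hBt] at hB hb
  rcases greedy a b ha hab (3 * t + 1) with h | ⟨a₁, b₁, ha₁, ha₁a, hs, hb₁, hUF, hdense⟩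
  · exact h.mono (by omega)
  have hb₁0 : 0 < b₁ := by omega
  have hB3 : 2 ^ (3 * t) = B ^ 3 := by rw [hBt, ← pow_mul, mul_comm]
  have hb₁' : b₁ ≤ 2 ^ (2 * B ^ 4) := by
    refine hb₁.trans ((Nat.pow_le_pow_left hb _).trans ?_)
    rw [← pow_mul, pow_succ, hB3]
    apply two_pow_mono
    apply le_of_eq; ring
  have hb₁'' : 2 ^ (B ^ 3) ≤ b₁ := by
    have h1 := syl_ge (3 * t)
    rw [hB3] at h1
    have h2 : syl (3 * t + 1) ≤ a₁ * syl (3 * t + 1) := Nat.le_mul_of_pos_left _ ha₁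
    omega
  obtain ⟨S, hS1, hS2⟩ := pool_big hBt ht hB hb₁0.ne' hb₁'
  obtain ⟨u, hu⟩ : ∃ u, u = t * B ^ 2 := ⟨_, rfl⟩
  obtain ⟨w, hw⟩ : ∃ w, w = 2 ^ 51 * t * u := ⟨_, rfl⟩
  obtain ⟨hB1, hu1, hw3, hw1, htu, hw', hsm2, hj0⟩ := num_basic ht hB hu hw
  have hB0 : 0 < B := by omega
  obtain ⟨hp1, hp2⟩ := num_pool hBt hu
  obtain ⟨τ, hτ1, hτ2⟩ := exists_pool (ι := (Fin (40 * u) × Fin (2 ^ 40)) × Fin (2 ^ (40 * t))) S
    (by
      refine le_trans ?_ hS1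
      simpa only [Fintype.card_prod, Fintype.card_fin] using hp1)
  obtain ⟨τ', hτ1', hτ2'⟩ := exists_pool (ι := Fin (31 * t) × Fin B) S
    (by
      refine le_trans ?_ hS1
      simpa only [Fintype.card_prod, Fintype.card_fin] using hp2)
  have hsmall := num_small ht hBt
  have ha₁' : a₁ ≤ 2 ^ B := by omega
  have hl1 : 1922 * w + 1 ≤ 2 ^ (3 * t) := by rw [hB3]; omega
  obtain ⟨hY1, hY2, hY3⟩ := num_Y ht hBt hl1
  obtain ⟨hL1, hL2⟩ := num_Lam ht ha₁' hsmall hsm2 htu hw' hw1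
  have huk : ∀ c : ℕ, (2 ^ (c * u)) ^ (2 ^ 51 * t) = 2 ^ (c * w) := by
    intro c; rw [← pow_mul, hw]; congr 1; ring
  have hcore := core (a₁ := a₁) (b₁ := b₁) (b := b) (J := 40 * u) (β := 2 ^ 40)
    (p0 := 2 ^ (40 * t)) (j0 := 40 * B ^ 2 + 1) (y := 2 ^ (44 * t)) (y' := 2 ^ (44 * t + 2))
    (k := 2 ^ 51 * t) (ρ := 2 ^ (1921 * u)) (κ := 2 ^ (40 * u)) (B := B) (j := 31 * t)
    (j' := 1437 * t) (H := 2 ^ (323 * w)) (l := 1922 * w) (R := 3 * t) (N := 2 ^ (1922 * w))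
    (V₀ := 2 ^ (1426 * t ^ 2 + 1)) (Λ := 2 ^ w) (α := 2 ^ (1599 * u))
    ha₁ hb₁0 hdense τ hτ1 (fun i => (hS2 _ (hτ2 i)).1) (fun i => (hS2 _ (hτ2 i)).2.1)
    (fun i => (hS2 _ (hτ2 i)).2.2.1) (fun i => (hS2 _ (hτ2 i)).2.2.2)
    τ' hτ1' (fun i => (hS2 _ (hτ2' i)).1) (fun i => (hS2 _ (hτ2' i)).2.2.1)
    (by positivity) (by positivity)
    (by
      rw [← pow_mul, ← pow_mul, show 4 = 2 ^ 2 by norm_num, ← pow_add]
      apply two_pow_mono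
      have : 40 * t * (40 * B ^ 2 + 1) = 1600 * u + 40 * t := by rw [hu]; ring
      omega)
    (by
      rw [← pow_mul, ← pow_succ']
      apply two_pow_mono; omega)
    (by positivity) (by positivity)
    (Nat.le_self_pow (by omega) 2)
    (by
      rw [huk]
      exact (two_pow_mono (by omega)).trans hb₁'')
    (by
      calc _ ≤ 2 ^ B * (2 ^ B * 2 ^ (2864 * t ^ 2 * B)) :=
            Nat.mul_le_mul hb (Nat.mul_le_mul ha₁' hsmall)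
        _ ≤ _ := by rw [← pow_add, ← pow_add]; apply two_pow_mono; omega)
    (num_sep hu hu1 ht hj0) hL1 (two_pow_mono (by omega)) (by rw [huk]; exact hL2)
    le_rfl (num_log (by omega))
    (by rw [huk, ← pow_add]; apply two_pow_mono; omega)
    (by rw [huk, ← pow_add]; apply two_pow_mono; omega)
    (by rw [huk, ← pow_add, ← pow_add, ← pow_mul]; apply two_pow_mono; omega)
    hY3 hY1 hY2 hB0
  have := (hUF.add hcore).mono (k' := 2 ^ 53 * t) (by omega)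
  simpa only [sub_add_cancel] using this

end Vale.Agent.P012
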